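import Vale.Agent.P106.U.H339.WordH

/-!
# P106 / U / H339 : [XS] levels with a small lag and a recent change, in the average over the windows (helper339)

`sm n D0 X u u'` = number of the levels `1 ≤ a ≤ n` with `u a ≠ u' a` and lag `X a - u a < D0`.
`smc n K1 D0 X kk e` = `sm` of the caps `kk` and `kk - K1` of the word value `e` (all levels if `kk < K1`).
`smc_avg` : the literal hypothesis of helper480's `pSelG` for the cost `smc`.
-/

set_option autoImplicit false

namespace Vale.Agent.P106.U.H339W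

open Finset Vale.Agent.P127 Vale.Agent.P127.Stk Vale.Agent.P106.U.H300

open Classical in
/-- number of the levels `1 ≤ a ≤ n` with a change and a small lag -/
noncomputable def sm (n D0 : ℕ) (X u u' : ℕ → ℕ) : ℕ :=
  ((Icc 1 n).filter fun a => u a ≠ u' a ∧ X a < u a + D0).card

theorem sm_le (n D0 : ℕ) (X u u' : ℕ → ℕ) : sm n D0 X u u' ≤ n := by
  unfold sm
  refine (Finset.card_filter_le _ _).trans ?_
  simp

theorem sm_congr {n D0 : ℕ} {X u u' v v' : ℕ → ℕ} (h : ∀ a ≤ n, u a = v a) (h' : ∀ a ≤ n, u' a = v' a) :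
    sm n D0 X u u' = sm n D0 X v v' := by
  unfold sm
  congr 1
  refine Finset.filter_congr fun a ha => ?_
  rw [Finset.mem_Icc] at ha
  rw [h a ha.2, h' a ha.2]

theorem sm_le_chg {n D0 : ℕ} {X u u' : ℕ → ℕ} (hle : ∀ a ≤ n, u a ≤ X a) : sm n D0 X u u' ≤ chg n D0 u X u' := by
  classical
  unfold sm chg
  refine Finset.card_le_card_of_injOn (fun a => a - 1) (fun a ha => ?_) ?_
  · simp only [Finset.coe_filter, Set.mem_setOf_eq, Finset.mem_Icc, Finset.mem_range] at ha ⊢
    obtain ⟨⟨h1, h2⟩, h3, h4⟩ := ha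
    have h5 := hle a h2
    rw [show a - 1 + 1 = a by omega]
    exact ⟨by omega, h3, by omega⟩
  · intro a ha b hb hab
    simp only [Finset.coe_filter, Set.mem_setOf_eq, Finset.mem_Icc] at ha hb
    simp only at hab
    omega

open Classical in
/-- the cost as a function of the value of the word of the window -/
noncomputable def smc (n K1 D0 : ℕ) (X : ℕ → ℕ) (kk : ℕ) (e : ℕ → ℕ → ℕ) : ℝ :=
  if K1 ≤ kk then (sm n D0 X (e kk) (e (kk - K1)) : ℝ) else n

theorem smc_nonneg (n K1 D0 : ℕ) (X : ℕ → ℕ) (kk : ℕ) (e : ℕ → ℕ → ℕ) : 0 ≤ smc n K1 D0 X kk e := by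
  unfold smc
  split_ifs <;> positivity

/-- value of the word = the depths at the caps of the window -/
theorem jws_apply {Ω : Type} {n s : ℕ} {w : ℕ → Ω → ℕ → ℕ} {b0 kk : ℕ} (ω : Ω) {k : ℕ} (hk : k ≤ kk) {a : ℕ}
    (ha : a ≤ n) : jws n s w b0 kk ω k a = w (b0 + k * s) ω a := by
  unfold jws jw
  rw [if_pos hk, pre_of_le ha]

/-- **[XS] in the average**, the literal form of `pSelG` -/
theorem smc_avg {Ω : Type} [Fintype Ω] {Q : Law Ω} {n B tol : ℕ} {X : ℕ → ℕ} {w : ℕ → Ω → ℕ → ℕ}
    (h : Wd Q n B tol X w) {s Tc K1 D0 : ℕ} (hB : 0 < B) (hs : 1 ≤ s) (hT0 : 0 < Tc) (hTs : Tc * s ≤ B) :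
    ∑ b0 ∈ range (B + 1 - Tc * s), ∑ kk ∈ range Tc, Q.ex (fun ω => smc n K1 D0 X kk (jws n s w b0 kk ω)) ≤
      (n * (K1 / Tc + K1 * s * D0 / B)) * (B * Tc) := by
  classical
  have hB0 : (0 : ℝ) < B := by exact_mod_cast hB
  have hTc : (0 : ℝ) < Tc := by exact_mod_cast hT0
  have hcap : ∀ b0 ∈ range (B + 1 - Tc * s), ∀ k ≤ Tc, b0 + k * s ≤ B := by
    intro b0 hb k hk
    rw [Finset.mem_range] at hb
    have := Nat.mul_le_mul_right s hk
    omega
  have hcard : ((B + 1 - Tc * s : ℕ) : ℝ) ≤ B := by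
    have : B + 1 - Tc * s ≤ B := by
      have := Nat.mul_le_mul hT0 hs
      omega
    exact_mod_cast this
  set w' : ℕ → Ω → ℕ → ℕ := fun b => w (min b B) with hw'
  have hm' : ∀ ω, 0 < Q.w ω → ∀ b, ∀ a ≤ n, w' b ω a ≤ w' (b + 1) ω a := by
    intro ω hω b a ha
    simp only [hw']
    rcases lt_or_ge b B with h1 | h1
    · rw [min_eq_left h1.le, min_eq_left (by omega)]
      exact h.mono b h1 ω hω a ha
    · rw [min_eq_right h1, min_eq_right (by omega)]
  -- one cap
  have one : ∀ kk ∈ range Tc, ∑ b0 ∈ range (B + 1 - Tc * s), Q.ex (fun ω => smc n K1 D0 X kk (jws n s w b0 kk ω)) ≤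
      (if kk < K1 then n * (B : ℝ) else 0) + n * (K1 * s * D0) := by
    intro kk hkk
    have hkk' := Finset.mem_range.1 hkk
    by_cases hk : K1 ≤ kk
    · rw [if_neg (not_lt.2 hk), zero_add]
      have e1 := ex_chg_s Q n (B + 1 - Tc * s) D0 (K1 * s) (fun _ => X) (fun j => w' (j + (kk - K1) * s))
        (fun ω hω j a ha => h.le _ (min_le_right _ _) ω hω a ha)
        (fun ω hω j _ a ha => by
          have := hm' ω hω (j + (kk - K1) * s) a ha
          rw [show j + 1 + (kk - K1) * s = j + (kk - K1) * s + 1 by ring]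
          exact this)
      refine le_trans (Finset.sum_le_sum fun b0 hb => ?_) (e1.trans (le_of_eq (by push_cast; ring)))
      refine Q.ex_mono fun ω hω => ?_
      have c1 := hcap b0 hb kk hkk'.le
      have c2 := hcap b0 hb (kk - K1) (by omega)
      have e2 : b0 + K1 * s + (kk - K1) * s = b0 + kk * s := by
        rw [add_assoc, ← Nat.add_mul, Nat.add_sub_cancel' hk]
      simp only [hw']
      rw [min_eq_left c2, e2, min_eq_left c1]
      unfold smc
      rw [if_pos hk]
      have e3 : sm n D0 X (jws n s w b0 kk ω kk) (jws n s w b0 kk ω (kk - K1)) =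
          sm n D0 X (w (b0 + kk * s) ω) (w (b0 + (kk - K1) * s) ω) :=
        sm_congr (fun a ha => jws_apply ω le_rfl ha) (fun a ha => jws_apply ω (by omega) ha)
      rw [e3]
      exact_mod_cast sm_le_chg fun a ha => h.le _ c1 ω hω a ha
    · rw [if_pos (not_le.1 hk)]
      have e1 : ∀ b0 ∈ range (B + 1 - Tc * s), Q.ex (fun ω => smc n K1 D0 X kk (jws n s w b0 kk ω)) ≤ n := by
        intro b0 _
        have e2 : (fun ω => smc n K1 D0 X kk (jws n s w b0 kk ω)) = fun _ : Ω => (n : ℝ) := by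
          funext ω
          unfold smc
          rw [if_neg hk]
        rw [e2, Q.ex_const]
      refine (Finset.sum_le_card_nsmul _ _ _ e1).trans ?_
      rw [card_range, nsmul_eq_mul]
      have e3 : ((B + 1 - Tc * s : ℕ) : ℝ) * n ≤ n * B := by
        rw [mul_comm]
        exact mul_le_mul_of_nonneg_left hcard (by positivity)
      have e4 : (0 : ℝ) ≤ n * (K1 * s * D0) := by positivity
      linarith
  rw [Finset.sum_comm]
  refine (Finset.sum_le_sum one).trans ?_
  rw [Finset.sum_add_distrib, Finset.sum_const, card_range, nsmul_eq_mul, ← Finset.sum_filter, Finset.sum_const,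
    nsmul_eq_mul]
  have e5 : (((range Tc).filter fun kk => kk < K1).card : ℝ) ≤ K1 := by
    have : ((range Tc).filter fun kk => kk < K1).card ≤ K1 := by
      refine (Finset.card_le_card (t := range K1) fun k hk => ?_).trans (by rw [card_range])
      rw [Finset.mem_filter] at hk
      exact Finset.mem_range.2 hk.2
    exact_mod_cast this
  have e6 : (((range Tc).filter fun kk => kk < K1).card : ℝ) * (n * (B : ℝ)) ≤ K1 * (n * B) :=
    mul_le_mul_of_nonneg_right e5 (by positivity)
  refine (add_le_add_left e6 _).trans (le_of_eq ?_)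
  field_simp

end Vale.Agent.P106.U.H339W
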