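import Vale.Agent.P106.U.H465.GcR
import Vale.Agent.P106.U.H661.Yng
import Vale.Agent.P106.U.H339.WordX
import Vale.Agent.P106.U.H565.Sel5

/-!
# P106 / U / H339 : [XS] over the word of the selection (helper339)

`c : C0`, `Q1` with `Cn`, `c.Zr` = joint word of the window (second paths of the caps `b0, b0 + s, .., b0 + kk s`),
`e : ℕ → ℕ → ℕ` = its value.

* `RCz A kk e k a` : the second path of the cap number `k`, read off the value `e` of the word; `rcz` : `= RT (b0 + k s) a`;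
  **`lag`** : helper661's `Yng.Lag` (so his `Vs`, `Xs`, `dg`, `old`, `card_runs`, `card_Xs` hold with `c := kk - K1`, `b := kk`).
* `psX` : the cost; `psX_nonneg`, **`psX_avg`** (average `≤ 2`).
* **`xs_num`**, **`xs_fields`** : the fields `runs`, `xs` of `S3.F2` (levels) at every place with `psX ≤ C`, and `K1 ≤ kk`.
-/

set_option autoImplicit false

namespace Vale.Agent.P106.U.H339W

open Finset Vale.Agent.P127 Vale.Agent.P127.Stk Vale.Agent.P127.U Vale.Agent.P106.W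
open Vale.Agent.P106.U Vale.Agent.P106.U.H449 Vale.Agent.P106.U.LinkR Vale.Agent.P106.U.H565
open Vale.Agent.P106.U.H661

/-- the second path of the cap number `k` of the window, read off the value of the word -/
def RCz (A kk : ℕ) (e : ℕ → ℕ → ℕ) (k a : ℕ) : ℕ := e (min k kk) a - (A - a)

section word

variable {Ω : Type} [Fintype Ω] {c : C0 Ω} {hm : 3 ≤ c.I.m} {cc : ℝ} {Q1 : Law Ω} {E1 : List (Lt 2)} {x1 : ℝ}
  {s b0 kk : ℕ} {ω : Ω} {z : ℕ → ℕ → ℕ}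

/-- the value of the word -/
theorem Zr_apply (hz : c.Zr hm cc s Q1 b0 kk ω = z) {k a : ℕ} (hk : k ≤ kk) (ha : a ≤ c.I.ha) :
    z k a = c.RT hm cc Q1 (b0 + k * s) a ω + (c.I.ha - a) := by
  rw [← hz]
  exact jws_apply ω hk ha

theorem rcz (hz : c.Zr hm cc s Q1 b0 kk ω = z) {k a : ℕ} (hk : k ≤ kk) (ha : a ≤ c.I.ha) :
    RCz c.I.ha kk z k a = c.RT hm cc Q1 (b0 + k * s) a ω := by
  unfold RCz
  rw [min_eq_left hk, Zr_apply hz hk ha]
  omega

theorem rcz' (hz : c.Zr hm cc s Q1 b0 kk ω = z) (k : ℕ) {a : ℕ} (ha : a ≤ c.I.ha) :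
    RCz c.I.ha kk z k a = c.RT hm cc Q1 (b0 + min k kk * s) a ω := by
  unfold RCz
  rw [Zr_apply hz (min_le_right _ _) ha]
  omega

/-- **the paths of the window** satisfy helper661's hypotheses -/
theorem lag (cn : Cn c.rule c.P Q1 c.I.pm.n E1 x1) (in0 : ∀ ω, c.d0.In (c.tW ω) (c.κ ω)) (hc : 0 ≤ cc)
    (hz : c.Zr hm cc s Q1 b0 kk ω = z) : Yng.Lag (RCz c.I.ha kk z) (Rw c.I.pm.n E1 1) c.I.ha 2 where
  le := fun b a ha => by
    rw [rcz' hz b ha]
    exact C0.rt_le cn _ a ω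
  mono := fun a ha b b' hb => by
    show RCz c.I.ha kk z b a ≤ RCz c.I.ha kk z b' a
    rw [rcz' hz b ha, rcz' hz b' ha]
    exact C0.rt_mono cn (Nat.add_le_add_left (Nat.mul_le_mul_right s (min_le_min_right _ hb)) b0) ω a
  lag := fun b a ha h => by
    rw [rcz' hz b ha.le] at h ⊢
    rw [rcz' hz b ha]
    exact C0.rt_eq cn in0 hc _ ω ha h

/-- changed levels with small lag -/
theorem sm_card {E1 : List (Lt 2)} {K1 D0 : ℕ} (hz : c.Zr hm cc s Q1 b0 kk ω = z)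
    (hk : K1 ≤ kk) :
    ((Yng.sm (RCz c.I.ha kk z) (Rw c.I.pm.n E1 1) c.I.ha D0 (kk - K1) kk).card : ℝ) ≤
      smc c.I.ha K1 D0 (c.XR E1) kk z + 1 := by
  classical
  unfold smc
  rw [if_pos hk]
  have h1 : (Yng.sm (RCz c.I.ha kk z) (Rw c.I.pm.n E1 1) c.I.ha D0 (kk - K1) kk).card ≤
      sm c.I.ha D0 (c.XR E1) (z kk) (z (kk - K1)) + 1 := by
    unfold sm
    refine le_trans (Finset.card_le_card ?_) (Finset.card_insert_le 0 _)
    intro a ha
    unfold Yng.sm Yng.ch at ha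
    rw [Finset.mem_filter, Finset.mem_range] at ha
    obtain ⟨h0, h1, h2⟩ := ha
    have h3 : a ≤ c.I.ha := by omega
    rw [Finset.mem_insert]
    rcases Nat.eq_zero_or_pos a with h4 | h4
    · left; exact h4
    · right
      rw [Finset.mem_filter, Finset.mem_Icc]
      rw [rcz hz (Nat.sub_le _ _) h3, rcz hz le_rfl h3] at h1
      rw [rcz hz le_rfl h3] at h2
      have e1 := Zr_apply hz (le_refl kk) h3
      have e2 := Zr_apply hz (Nat.sub_le kk K1) h3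
      refine ⟨⟨h4, h3⟩, ?_, ?_⟩
      · rw [e1, e2]
        omega
      · rw [e1]
        unfold C0.XR
        omega
  exact_mod_cast h1

end word

/-! ### the cost -/

/-- **the cost of [XS]** -/
noncomputable def psX (A Tc s K1 D0 nB : ℕ) (X : ℕ → ℕ) (kk : ℕ) (z : ℕ → ℕ → ℕ) : ℝ :=
  (if kk < K1 then (Tc : ℝ) / K1 else 0) + smc A K1 D0 X kk z / (A * (K1 / Tc + K1 * s * D0 / nB))

theorem psX_nonneg (A Tc s K1 D0 nB : ℕ) (X : ℕ → ℕ) (kk : ℕ) (z : ℕ → ℕ → ℕ) :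
    0 ≤ psX A Tc s K1 D0 nB X kk z := by
  unfold psX
  have h1 := smc_nonneg A K1 D0 X kk z
  have h2 : (0 : ℝ) ≤ smc A K1 D0 X kk z / (A * (K1 / Tc + K1 * s * D0 / nB)) := by positivity
  split_ifs <;> positivity

/-- **average of the cost** -/
theorem psX_avg {Ω : Type} [Fintype Ω] {c : C0 Ω} {hm : 3 ≤ c.I.m} {cc : ℝ} {Q1 : Law Ω} {E1 : List (Lt 2)} {x1 : ℝ}
    (cn : Cn c.rule c.P Q1 c.I.pm.n E1 x1) (in0 : ∀ ω, c.d0.In (c.tW ω) (c.κ ω)) (hc : 0 ≤ cc)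
    {Tc s K1 D0 nB : ℕ} (hnB : 0 < nB) (hs : 1 ≤ s) (hT0 : 0 < Tc) (hTs : Tc * s ≤ nB) :
    ∑ b0 ∈ range (nB + 1 - Tc * s), ∑ kk ∈ range Tc,
      Q1.ex (fun ω => psX c.I.ha Tc s K1 D0 nB (c.XR E1) kk (c.Zr hm cc s Q1 b0 kk ω)) ≤ 2 * (nB * Tc) := by
  classical
  have hTr : (0 : ℝ) < Tc := by exact_mod_cast hT0
  have hnBr : (0 : ℝ) < nB := by exact_mod_cast hnB
  have hcard : ((nB + 1 - Tc * s : ℕ) : ℝ) ≤ nB := by
    have : nB + 1 - Tc * s ≤ nB := by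
      have := Nat.mul_le_mul hT0 hs
      omega
    exact_mod_cast this
  set κ : ℝ := c.I.ha * (K1 / Tc + K1 * s * D0 / nB) with hκ
  have hκ0 : 0 ≤ κ := by rw [hκ]; positivity
  have e1 : ∀ b0 kk, Q1.ex (fun ω => psX c.I.ha Tc s K1 D0 nB (c.XR E1) kk (c.Zr hm cc s Q1 b0 kk ω)) =
      (if kk < K1 then (Tc : ℝ) / K1 else 0) +
        κ⁻¹ * Q1.ex (fun ω => smc c.I.ha K1 D0 (c.XR E1) kk (jws c.I.ha s (c.wRT hm cc Q1) b0 kk ω)) := by
    intro b0 kk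
    have e2 : (fun ω => psX c.I.ha Tc s K1 D0 nB (c.XR E1) kk (c.Zr hm cc s Q1 b0 kk ω)) =
        fun ω => (fun _ => if kk < K1 then (Tc : ℝ) / K1 else 0) ω +
          (fun ω => κ⁻¹ * smc c.I.ha K1 D0 (c.XR E1) kk (jws c.I.ha s (c.wRT hm cc Q1) b0 kk ω)) ω := by
      funext ω
      show psX c.I.ha Tc s K1 D0 nB (c.XR E1) kk (c.Zr hm cc s Q1 b0 kk ω) =
        (if kk < K1 then (Tc : ℝ) / K1 else 0) + κ⁻¹ * smc c.I.ha K1 D0 (c.XR E1) kk (c.Zr hm cc s Q1 b0 kk ω)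
      unfold psX
      rw [← hκ, ← div_eq_inv_mul]
    rw [e2, Q1.ex_add, Q1.ex_const, Q1.ex_const_mul]
  simp only [e1, Finset.sum_add_distrib, ← Finset.mul_sum]
  have h1 : ∑ b0 ∈ range (nB + 1 - Tc * s), ∑ kk ∈ range Tc, (if kk < K1 then (Tc : ℝ) / K1 else 0) ≤ nB * Tc := by
    rw [Finset.sum_const, card_range, nsmul_eq_mul]
    refine mul_le_mul hcard ?_ (Finset.sum_nonneg fun _ _ => by split_ifs <;> positivity) hnBr.le
    rw [← Finset.sum_filter, Finset.sum_const, nsmul_eq_mul]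
    have e5 : (((range Tc).filter fun kk => kk < K1).card : ℝ) ≤ K1 := by
      have : ((range Tc).filter fun kk => kk < K1).card ≤ K1 := by
        refine (Finset.card_le_card (t := range K1) fun k hk => ?_).trans (by rw [card_range])
        rw [Finset.mem_filter] at hk
        exact Finset.mem_range.2 hk.2
      exact_mod_cast this
    rcases Nat.eq_zero_or_pos K1 with hK | hK
    · rw [hK, Nat.cast_zero, div_zero, mul_zero]
      exact hTr.le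
    · have hK' : (0 : ℝ) < K1 := by exact_mod_cast hK
      calc (((range Tc).filter fun kk => kk < K1).card : ℝ) * (Tc / K1) ≤ K1 * (Tc / K1) :=
            mul_le_mul_of_nonneg_right e5 (by positivity)
        _ = Tc := by field_simp
  have h2 := smc_avg (C0.wd (hm := hm) cn in0 hc nB) (s := s) (Tc := Tc) (K1 := K1) (D0 := D0) hnB hs hT0 hTs
  rw [← hκ] at h2
  have h3 : κ⁻¹ * ∑ b0 ∈ range (nB + 1 - Tc * s), ∑ kk ∈ range Tc,
      Q1.ex (fun ω => smc c.I.ha K1 D0 (c.XR E1) kk (jws c.I.ha s (c.wRT hm cc Q1) b0 kk ω)) ≤ nB * Tc := by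
    rcases hκ0.eq_or_lt with h4 | h4
    · rw [← h4, inv_zero, zero_mul]
      positivity
    · rw [inv_mul_le_iff₀ h4]
      exact h2
  linarith

/-! ### the numbers -/

/-- the cost is small at the place -/
theorem smc_le {A Tc s K1 D0 nB : ℕ} {X : ℕ → ℕ} {kk : ℕ} {z : ℕ → ℕ → ℕ} {C : ℝ} (hT0 : 0 < Tc)
    (hT : C * K1 < Tc) (h : psX A Tc s K1 D0 nB X kk z ≤ C) :
    K1 ≤ kk ∧ smc A K1 D0 X kk z ≤ C * (A * (K1 / Tc + K1 * s * D0 / nB)) := by
  classical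
  have hTr : (0 : ℝ) < Tc := by exact_mod_cast hT0
  have h0 := smc_nonneg A K1 D0 X kk z
  have h1 : (0 : ℝ) ≤ smc A K1 D0 X kk z / (A * (K1 / Tc + K1 * s * D0 / nB)) := by positivity
  unfold psX at h
  have hk : K1 ≤ kk := by
    by_contra hk
    rw [if_pos (by omega)] at h
    have hK : (0 : ℝ) < K1 := by
      have : 0 < K1 := by omega
      exact_mod_cast this
    have h2 : (Tc : ℝ) / K1 ≤ C := by linarith
    rw [div_le_iff₀ hK] at h2
    linarith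
  refine ⟨hk, ?_⟩
  rw [if_neg (by omega), zero_add] at h
  have hκ0 : (0 : ℝ) ≤ A * (K1 / Tc + K1 * s * D0 / nB) := by positivity
  rcases hκ0.eq_or_lt with h4 | h4
  · rw [← h4, mul_zero]
    unfold smc
    rw [if_pos hk]
    rcases mul_eq_zero.1 h4.symm with h5 | h5
    · have h6 : A = 0 := by exact_mod_cast h5
      have h7 := sm_le A D0 X (z kk) (z (kk - K1))
      rw [h6] at h7 ⊢
      have : sm 0 D0 X (z kk) (z (kk - K1)) = 0 := by omega
      rw [this, Nat.cast_zero]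
    · have h6 : (0 : ℝ) ≤ (K1 : ℝ) * s * D0 / nB := by positivity
      have h7 : (K1 : ℝ) / Tc = 0 := le_antisymm (by linarith) (by positivity)
      have h8 : (K1 : ℝ) = 0 := by
        rcases div_eq_zero_iff.1 h7 with h | h
        · exact h
        · exact absurd h hTr.ne'
      have h9 : K1 = 0 := by exact_mod_cast h8
      subst h9
      have : sm A D0 X (z kk) (z (kk - 0)) = 0 := by
        unfold sm
        rw [Finset.card_eq_zero, Finset.filter_eq_empty_iff]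
        intro a _ h
        exact h.1 rfl
      rw [this, Nat.cast_zero]
  · rwa [div_le_iff₀ h4] at h

private theorem num_aux {m h G C η δ T K S D N x A : ℝ} (hm : 0 < m) (hh : 0 ≤ h) (hG : 0 < G) (hC : 0 ≤ C) (hη : 0 < η)
    (hT : 0 < T) (hK : 0 ≤ K) (hS : 0 ≤ S) (hD : 0 ≤ D) (hN : 0 < N)
    (h1 : 12 * G * C * K ≤ T * η) (h2 : 24 * G * C * K * S * D * m ≤ h * (δ * η)) (h3 : 12 * G * m ≤ h * η)
    (hn : δ * h / 2 ≤ m * N) (hA : m * A ≤ h) (hx : x ≤ C * (A * (K / T + K * S * D / N))) :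
    m * (G * (3 * (x + 1) + 3)) ≤ η * h := by
  have p0 : 0 ≤ K / T + K * S * D / N := by positivity
  have e1 : m * x ≤ C * h * (K / T + K * S * D / N) := by
    calc m * x ≤ m * (C * (A * (K / T + K * S * D / N))) := mul_le_mul_of_nonneg_left hx hm.le
      _ = C * (m * A) * (K / T + K * S * D / N) := by ring
      _ ≤ C * h * (K / T + K * S * D / N) := mul_le_mul_of_nonneg_right (mul_le_mul_of_nonneg_left hA hC) p0
  have e2 : 12 * G * C * K / T ≤ η := by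
    rw [div_le_iff₀ hT]
    linarith
  have e3 : 12 * G * C * K * S * D / N ≤ η := by
    rw [div_le_iff₀ hN]
    have h5 : m * (12 * G * C * K * S * D) ≤ m * (η * N) := by
      have := mul_le_mul_of_nonneg_right hn hη.le
      linarith
    exact le_of_mul_le_mul_left h5 hm
  have e4 := mul_le_mul_of_nonneg_left e2 hh
  have e5 := mul_le_mul_of_nonneg_left e3 hh
  have e6 : 3 * G * (m * x) ≤ 3 * G * (C * h * (K / T + K * S * D / N)) := mul_le_mul_of_nonneg_left e1 (by positivity)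
  have e7 : 3 * G * (C * h * (K / T + K * S * D / N)) =
      (h * (12 * G * C * K / T) + h * (12 * G * C * K * S * D / N)) / 4 := by ring
  linarith

/-- **numbers** : `η = 1 / B`, `1 / (4 B)`, .. -/
theorem xs_num {C δ η : ℝ} (hC : 0 ≤ C) (hδ : 0 < δ) (hη : 0 < η) {m : ℕ} (hm : 0 < m) (g K1 D0 s : ℕ) :
    ∃ Tc0 : ℕ, 0 < Tc0 ∧ ∀ Tc, Tc0 ≤ Tc → ∃ h0 : ℕ, ∀ h, h0 ≤ h → Tc * s ≤ nBl δ h m ∧ 0 < nBl δ h m ∧
      ∀ (A : ℕ), m * A ≤ h → ∀ (X : ℕ → ℕ) (kk : ℕ) (z : ℕ → ℕ → ℕ),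
      psX A Tc s K1 D0 (nBl δ h m) X kk z ≤ C →
      K1 ≤ kk ∧ (m : ℝ) * ((2 * g + 1) * (3 * (smc A K1 D0 X kk z + 1) + 3)) ≤ η * h := by
  have hmr : (0 : ℝ) < m := by exact_mod_cast hm
  have hG0 : (0 : ℝ) < 2 * g + 1 := by positivity
  obtain ⟨T1, hT1⟩ := exists_nat_gt (C * K1)
  obtain ⟨T2, hT2⟩ := exists_nat_gt (12 * (2 * g + 1) * C * K1 / η)
  refine ⟨max (max T1 T2) 1, lt_of_lt_of_le one_pos (le_max_right _ _), fun Tc hTc => ?_⟩
  have hTc1 : T1 ≤ Tc := ((le_max_left _ _).trans (le_max_left _ _)).trans hTc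
  have hTc2 : T2 ≤ Tc := ((le_max_right _ _).trans (le_max_left _ _)).trans hTc
  have hTc3 : 0 < Tc := lt_of_lt_of_le one_pos ((le_max_right _ _).trans hTc)
  have hTr : (0 : ℝ) < Tc := by exact_mod_cast hTc3
  have hTa : C * K1 < Tc := hT1.trans_le (by exact_mod_cast hTc1)
  have hTb : 12 * (2 * g + 1) * C * K1 / η ≤ Tc := (hT2.trans_le (by exact_mod_cast hTc2)).le
  obtain ⟨H1, hH1⟩ := exists_nat_ge (2 * (m : ℝ) / δ)
  obtain ⟨H2, hH2⟩ := exists_nat_ge (2 * m * (Tc * s) / δ)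
  obtain ⟨H3, hH3⟩ := exists_nat_ge (24 * (2 * g + 1) * C * K1 * s * D0 * m / (δ * η))
  obtain ⟨H4, hH4⟩ := exists_nat_ge (12 * (2 * g + 1) * m / η)
  refine ⟨max (max H1 H2) (max H3 H4), fun h hh => ?_⟩
  have hh1 : (2 * (m : ℝ) / δ) ≤ h := hH1.trans (by exact_mod_cast ((le_max_left _ _).trans (le_max_left _ _)).trans hh)
  have hh2 : 2 * m * (Tc * s) / δ ≤ (h : ℝ) :=
    hH2.trans (by exact_mod_cast ((le_max_right _ _).trans (le_max_left _ _)).trans hh)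
  have hh3 : 24 * (2 * g + 1) * C * K1 * s * D0 * m / (δ * η) ≤ (h : ℝ) :=
    hH3.trans (by exact_mod_cast ((le_max_left _ _).trans (le_max_right _ _)).trans hh)
  have hh4 : 12 * (2 * g + 1) * m / η ≤ (h : ℝ) :=
    hH4.trans (by exact_mod_cast ((le_max_right _ _).trans (le_max_right _ _)).trans hh)
  obtain ⟨n1, n2, n3⟩ := le_nBl hδ hm hh1
  push_cast at n1
  have hnBr : (0 : ℝ) < nBl δ h m := by exact_mod_cast n2
  rw [div_le_iff₀ hδ] at hh2
  rw [div_le_iff₀ (mul_pos hδ hη)] at hh3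
  rw [div_le_iff₀ hη] at hh4 hTb
  refine ⟨?_, n2, fun A hA X kk z hψ => ?_⟩
  · have h1 : (m : ℝ) * (Tc * s) ≤ m * nBl δ h m := by linarith
    have h2 : ((Tc * s : ℕ) : ℝ) ≤ nBl δ h m := by
      push_cast
      exact le_of_mul_le_mul_left h1 hmr
    exact_mod_cast h2
  · obtain ⟨k1, k2⟩ := smc_le hTc3 hTa hψ
    exact ⟨k1, num_aux hmr (Nat.cast_nonneg h) hG0 hC hη hTr (Nat.cast_nonneg K1) (Nat.cast_nonneg s) (Nat.cast_nonneg D0)
      hnBr hTb hh3 hh4 n1 (by exact_mod_cast hA) k2⟩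

/-- **the fields `runs`, `xs` of `S3.F2`**, in levels -/
theorem xs_fields {Ω : Type} [Fintype Ω] {c : C0 Ω} {hm : 3 ≤ c.I.m} {cc : ℝ} {Q1 : Law Ω} {E1 : List (Lt 2)} {x1 : ℝ}
    (cn : Cn c.rule c.P Q1 c.I.pm.n E1 x1) (in0 : ∀ ω, c.d0.In (c.tW ω) (c.κ ω)) (hc : 0 ≤ cc)
    {s b0 kk : ℕ} {ω : Ω} {z : ℕ → ℕ → ℕ}
    (hz : c.Zr hm cc s Q1 b0 kk ω = z) {g K1 D0 : ℕ} (hD : 2 ≤ D0) (hk : K1 ≤ kk) {M : ℝ} (hM : 0 ≤ M) {Y : ℝ}
    (hn : M * ((2 * g + 1) * (3 * (smc c.I.ha K1 D0 (c.XR E1) kk z + 1) + 3)) ≤ Y) :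
    M * (((Yng.Vs (RCz c.I.ha kk z) (Rw c.I.pm.n E1 1) c.I.ha D0 g (kk - K1) kk).filter fun v => v + 1 ∉
        Yng.Vs (RCz c.I.ha kk z) (Rw c.I.pm.n E1 1) c.I.ha D0 g (kk - K1) kk).card : ℝ) ≤ Y ∧
      M * ((Yng.Xs (RCz c.I.ha kk z) (Rw c.I.pm.n E1 1) c.I.ha D0 g (kk - K1) kk).card : ℝ) ≤ Y := by
  have H := lag cn in0 hc hz
  have h1 := H.card_runs hD (Nat.sub_le kk K1) g
  have h2 := H.card_Xs hD (Nat.sub_le kk K1) g
  have h3 := sm_card (E1 := E1) (D0 := D0) hz hk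
  set sc := (Yng.sm (RCz c.I.ha kk z) (Rw c.I.pm.n E1 1) c.I.ha D0 (kk - K1) kk).card
  set x := smc c.I.ha K1 D0 (c.XR E1) kk z
  have hg : (0 : ℝ) ≤ g := Nat.cast_nonneg g
  have hx : 0 ≤ x := smc_nonneg _ _ _ _ _ _
  constructor
  · refine le_trans (mul_le_mul_of_nonneg_left ?_ hM) hn
    have h4 : (((Yng.Vs (RCz c.I.ha kk z) (Rw c.I.pm.n E1 1) c.I.ha D0 g (kk - K1) kk).filter fun v => v + 1 ∉
        Yng.Vs (RCz c.I.ha kk z) (Rw c.I.pm.n E1 1) c.I.ha D0 g (kk - K1) kk).card : ℝ) ≤ (sc : ℝ) + 1 := by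
      exact_mod_cast h1
    nlinarith
  · refine le_trans (mul_le_mul_of_nonneg_left ?_ hM) hn
    have h4 : ((Yng.Xs (RCz c.I.ha kk z) (Rw c.I.pm.n E1 1) c.I.ha D0 g (kk - K1) kk).card : ℝ) ≤
        (2 * g + 1) * (3 * sc + 3) := by exact_mod_cast h2
    refine h4.trans (mul_le_mul_of_nonneg_left (by linarith) (by positivity))

end Vale.Agent.P106.U.H339W
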