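import Vale.Agent.P127.Stk.LibEnt

/-!
# P106 / U / H339 : [LAGW] number of the joint words of a window of caps (helper339; helper776's note 19650 (2))

Abstract finite law `Q`; `X k a ω` : revealed depth at the cap `b_k` (`k ≤ T`) and the level `a ≤ n`; `I a` : full depth
(deterministic). If the depths are nondecreasing in the cap, constant from the level `a` to `a + 1` when the lag
`I a - X k a ≥ τ`, and fall by at most `τ`, and `I` falls by at most `1`, then
`H((X k a)_(k ≤ T, a ≤ n) | (X 0 a)_a)` is small: `lagw`.  `win` : the costs of the windows telescope.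
-/

set_option autoImplicit false

namespace Vale.Agent.P106.U.LagW339

open Finset Vale.Agent.P127 Vale.Agent.P127.Stk

/-- counting bound: given `Y` there are at most `N` values of `X` -/
theorem hc_exlog {Ω : Type} [Fintype Ω] {α β : Type*} (P : Law Ω) (X : Ω → α) (Y : Ω → β) (N : Ω → ℕ)
    (h : ∀ ω, 0 < P.w ω → ∃ F : Finset α, F.card ≤ N ω ∧
      ∀ ω', 0 < P.w ω' → Y ω' = Y ω → X ω' ∈ F) : Stk.hc P X Y ≤ P.ex fun ω => Real.log (N ω) := by
  classical
  let F : β → Finset α := fun y => (Finset.univ.filter fun ω => 0 < P.w ω ∧ Y ω = y).image X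
  have hF1 : ∀ ω, 0 < P.w ω → (F (Y ω)).card ≤ N ω := by
    intro ω hω
    obtain ⟨G, g1, g2⟩ := h ω hω
    refine (Finset.card_le_card ?_).trans g1
    intro x hx
    rw [Finset.mem_image] at hx
    obtain ⟨ω', h1, rfl⟩ := hx
    rw [Finset.mem_filter] at h1
    exact g2 ω' h1.2.1 h1.2.2
  have hF2 : ∀ ω, 0 < P.w ω → X ω ∈ F (Y ω) := by
    intro ω hω
    rw [Finset.mem_image]
    exact ⟨ω, by rw [Finset.mem_filter]; exact ⟨Finset.mem_univ _, hω, rfl⟩, rfl⟩
  have hpos : ∀ ω, 0 < P.w ω → 0 < (F (Y ω)).card := fun ω hω => Finset.card_pos.2 ⟨_, hF2 ω hω⟩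
  have hg := P.gibbs_cond X Y (fun x y => if x ∈ F y then 1 / ((F y).card : ℝ) else 0)
    (fun x y => by split_ifs <;> positivity) ?_ (fun ω hω => by
      rw [if_pos (hF2 ω hω)]
      have : (0:ℝ) < (F (Y ω)).card := by exact_mod_cast hpos ω hω
      positivity)
  · refine le_trans (le_of_eq rfl) (hg.trans ?_)
    refine P.ex_mono fun ω hω => ?_
    rw [if_pos (hF2 ω hω), one_div, Real.log_inv, neg_neg]
    have h1 : (0:ℝ) < (F (Y ω)).card := by exact_mod_cast hpos ω hω
    exact Real.log_le_log h1 (by exact_mod_cast hF1 ω hω)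
  · intro y G
    rw [← Finset.sum_filter, Finset.sum_const, nsmul_eq_mul, mul_one_div]
    have : (G.filter (fun x => x ∈ F y)).card ≤ (F y).card :=
      Finset.card_le_card fun x hx => (Finset.mem_filter.1 hx).2
    have h2 : ((G.filter (fun x => x ∈ F y)).card : ℝ) ≤ (F y).card := by exact_mod_cast this
    rcases (Finset.card_pos (s := F y) |>.not.2 |> fun _ => Nat.eq_zero_or_pos (F y).card) with h0 | h0
    · rw [h0]; simp
    · have h0' : (0:ℝ) < (F y).card := by exact_mod_cast h0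
      exact div_le_one_of_le₀ h2 h0'.le

/-! ### arithmetic -/

/-- number of starts of deep stretches -/
theorem starts {τ D : ℕ} (n : ℕ) (g : ℕ → ℕ) (hg : ∀ a < n, τ ≤ g a → g a ≤ g (a + 1) + 1) :
    ((Finset.range n).filter fun a => g a < τ ∧ D ≤ g (a + 1)).card * (D - τ) ≤ n + (D - τ) := by
  have key : ∀ m ≤ n, ((Finset.range m).filter fun a => g a < τ ∧ D ≤ g (a + 1)).card * (D - τ) ≤
      m + min (g m - τ) (D - τ) := by
    intro m
    induction m with
    | zero => intro _; simp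
    | succ m ih =>
      intro hm
      have h1 := ih (by omega)
      rw [Finset.range_add_one, Finset.filter_insert]
      by_cases h2 : g m < τ ∧ D ≤ g (m + 1)
      · rw [if_pos h2, Finset.card_insert_of_notMem (by simp)]
        have h3 : min (g m - τ) (D - τ) = 0 := by
          have : g m - τ = 0 := by omega
          rw [this, Nat.zero_min]
        have h4 : min (g (m + 1) - τ) (D - τ) = D - τ := min_eq_right (by omega)
        rw [h3] at h1
        rw [h4, add_mul, one_mul]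
        omega
      · rw [if_neg h2]
        have h5 : min (g m - τ) (D - τ) ≤ 1 + min (g (m + 1) - τ) (D - τ) := by
          by_cases h6 : τ ≤ g m
          · have := hg m (by omega) h6
            omega
          · have : g m - τ = 0 := by omega
            omega
        omega
  refine (key n le_rfl).trans ?_
  have := min_le_right (g n - τ) (D - τ)
  omega

/-- truncated lag -/
def Ph (I : ℕ → ℕ) (D a x : ℕ) : ℕ := min (I a - x) D

theorem Ph_le (I : ℕ → ℕ) (D a x : ℕ) : Ph I D a x ≤ D := min_le_right _ _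

theorem Ph_anti (I : ℕ → ℕ) (D a : ℕ) {x y : ℕ} (h : x ≤ y) : Ph I D a y ≤ Ph I D a x := by
  unfold Ph
  omega

section

variable {Ω : Type} [Fintype Ω]

/-- hypotheses -/
structure Hy (Q : Law Ω) (n T τ : ℕ) (I : ℕ → ℕ) (X : ℕ → ℕ → Ω → ℕ) : Prop where
  mono : ∀ ω, 0 < Q.w ω → ∀ k < T, ∀ a ≤ n, X k a ω ≤ X (k + 1) a ω
  le : ∀ ω, 0 < Q.w ω → ∀ k ≤ T, ∀ a ≤ n, X k a ω ≤ I a
  lag : ∀ ω, 0 < Q.w ω → ∀ k ≤ T, ∀ a < n, X k a ω + τ ≤ I a → X k (a + 1) ω = X k a ω
  dn : ∀ ω, 0 < Q.w ω → ∀ k ≤ T, ∀ a < n, X k a ω ≤ X k (a + 1) ω + τ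
  I1 : ∀ a < n, I a ≤ I (a + 1) + 1
  τ1 : 1 ≤ τ

/-- a variable with two values -/
theorem hc_bool {β : Type*} (Q : Law Ω) (c : Ω → Prop) [DecidablePred c] (Y : Ω → β) {s : ℝ} (hs : 0 < s) (hs2 : s ≤ 1 / 2) :
    hc Q (fun ω => decide (c ω)) Y ≤ Q.ex (fun ω => if c ω then (1 : ℝ) else 0) * Real.log (1 / s) + 2 * s := by
  have hg := Q.gibbs_cond (fun ω => decide (c ω)) Y (fun x _ => if x = true then s else 1 - s)
    (fun x y => by split_ifs <;> linarith) (fun y F => by
      have h1 : ∑ x ∈ F, (if x = true then s else 1 - s) ≤ ∑ x : Bool, (if x = true then s else 1 - s) :=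
        Finset.sum_le_sum_of_subset_of_nonneg (Finset.subset_univ _) fun x _ _ => by split_ifs <;> linarith
      simp at h1
      simpa using h1) (fun ω _ => by
      split_ifs <;> linarith)
  refine le_trans (le_of_eq rfl) (hg.trans ?_)
  have h2 : Q.ex (fun ω => -Real.log (if decide (c ω) = true then s else 1 - s)) ≤
      Q.ex (fun ω => Real.log (1 / s) * (if c ω then (1 : ℝ) else 0) + 2 * s) := by
    refine Q.ex_mono fun ω _ => ?_
    by_cases hc : c ω
    · simp only [hc, decide_true, if_true, mul_one]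
      rw [one_div, Real.log_inv]
      linarith
    · simp only [hc, decide_false, if_false, mul_zero, zero_add, Bool.false_eq_true]
      have h3 : 0 < 1 - s := by linarith
      have h4 := Real.one_sub_inv_le_log_of_pos h3
      have h5 : (1 - s)⁻¹ ≤ 1 + 2 * s := by
        rw [inv_le_comm₀ h3 (by linarith)]
        rw [inv_le_iff_one_le_mul₀ (by linarith)]
        nlinarith
      linarith
  rw [Q.ex_add, Q.ex_const, Q.ex_const_mul] at h2
  linarith

namespace Hy

variable {Q : Law Ω} {n T τ : ℕ} {I : ℕ → ℕ} {X : ℕ → ℕ → Ω → ℕ} (h : Hy Q n T τ I X)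

include h

theorem mono' {ω : Ω} (hω : 0 < Q.w ω) {k k' : ℕ} (hk : k ≤ k') (hk' : k' ≤ T) {a : ℕ} (ha : a ≤ n) : X k a ω ≤ X k' a ω := by
  induction k', hk using Nat.le_induction with
  | base => exact le_rfl
  | succ m hm ih => exact (ih (by omega)).trans (h.mono ω hω m (by omega) a ha)

/-- the bound on the number of payments -/
theorem pay_le {D : ℕ} {ω : Ω} (hω : 0 < Q.w ω) {a : ℕ} (ha : a < n)
    (hp : I a < X T a ω + τ ∧ X T (a + 1) ω ≠ X 0 (a + 1) ω) :
    (I a - X T a ω < τ ∧ D ≤ I (a + 1) - X T (a + 1) ω) ∨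
      Ph I D (a + 1) (X T (a + 1) ω) + 1 ≤ Ph I D (a + 1) (X 0 (a + 1) ω) := by
  have h1 := h.mono' hω (Nat.zero_le T) le_rfl (a := a + 1) (by omega)
  have h2 := h.le ω hω T le_rfl (a + 1) (by omega)
  have h3 := h.le ω hω T le_rfl a (by omega)
  unfold Ph
  omega

/-- the step -/
theorem step {a : ℕ} (ha : a < n) {s : ℝ} (hs : 0 < s) (hs2 : s ≤ 1 / 2) :
    hc Q (fun ω (k : Fin (T + 1)) => X k (a + 1) ω)
      (fun ω => ((fun (k : Fin (T + 1)) => X k a ω), (fun (a : Fin (n + 1)) => X 0 a ω))) ≤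
    Q.ex (fun ω => if I a < X T a ω + τ ∧ X T (a + 1) ω ≠ X 0 (a + 1) ω then (1 : ℝ) else 0) *
      (Real.log (1 / s) + T * Real.log ((I (a + 1) + 2 * τ - I a : ℕ) : ℝ)) + 2 * s := by
  classical
  set c : Ω → Prop := fun ω => I a < X T a ω + τ ∧ X T (a + 1) ω ≠ X 0 (a + 1) ω with hc'
  set Z : Ω → (Fin (T + 1) → ℕ) × (Fin (n + 1) → ℕ) :=
    fun ω => ((fun (k : Fin (T + 1)) => X k a ω), (fun (a : Fin (n + 1)) => X 0 a ω)) with hZ
  set L : ℕ := I (a + 1) + 2 * τ - I a with hL
  have hτ := h.τ1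
  have hI := h.I1 a ha
  have h1 := hc_le_add Q (fun ω (k : Fin (T + 1)) => X k (a + 1) ω) (fun ω => decide (c ω)) Z
  have h2 := hc_bool Q c Z hs hs2
  have h3 := hc_exlog Q (fun ω (k : Fin (T + 1)) => X k (a + 1) ω) (fun ω => (decide (c ω), Z ω))
    (fun ω => if c ω then L ^ T else 1) (fun ω hω => by
      have z1 : ∀ ω', Z ω' = Z ω → (∀ k ≤ T, X k a ω' = X k a ω) ∧ ∀ a ≤ n, X 0 a ω' = X 0 a ω := by
        intro ω' e
        simp only [hZ, Prod.mk.injEq] at e
        refine ⟨fun k hk => ?_, fun a ha => ?_⟩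
        · have := congrFun e.1 ⟨k, by omega⟩
          simpa using this
        · have := congrFun e.2 ⟨a, by omega⟩
          simpa using this
      by_cases hcω : c ω
      · rw [if_pos hcω]
        refine ⟨Fintype.piFinset (fun k : Fin (T + 1) => if (k : ℕ) = 0 then {X 0 (a + 1) ω} else
          if X k a ω + τ ≤ I a then {X k a ω} else Finset.Icc (I a + 1 - 2 * τ) (I (a + 1))), ?_, ?_⟩
        · rw [Fintype.card_piFinset, Fin.prod_univ_succ]
          simp only [Fin.val_zero, if_true, Finset.card_singleton, one_mul]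
          refine (Finset.prod_le_pow_card _ _ L fun k _ => ?_).trans (by simp)
          have hk : ((k.succ : Fin (T + 1)) : ℕ) ≠ 0 := by simp
          rw [if_neg hk]
          split_ifs with h4
          · rw [Finset.card_singleton]
            omega
          · rw [Nat.card_Icc]
            omega
        · intro ω' hω' e
          simp only [Prod.mk.injEq] at e
          obtain ⟨y1, y2⟩ := z1 ω' e.2
          rw [Fintype.mem_piFinset]
          intro k
          have hkT : (k : ℕ) ≤ T := by omega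
          have hle := h.le ω' hω' k hkT (a + 1) (by omega)
          have hdn := h.dn ω' hω' k hkT a ha
          split_ifs with h4 h5
          · rw [Finset.mem_singleton, h4]
            exact y2 (a + 1) (by omega)
          · rw [Finset.mem_singleton]
            rw [← y1 k hkT] at h5
            rw [h.lag ω' hω' k hkT a ha h5, y1 k hkT]
          · rw [Finset.mem_Icc]
            rw [← y1 k hkT] at h5
            omega
      · rw [if_neg hcω]
        refine ⟨{fun k : Fin (T + 1) => X k (a + 1) ω}, by simp, ?_⟩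
        intro ω' hω' e
        simp only [Prod.mk.injEq] at e
        obtain ⟨y1, y2⟩ := z1 ω' e.2
        have hcω' : ¬ c ω' := fun h4 => hcω (by simpa [h4] using e.1)
        rw [Finset.mem_singleton]
        funext k
        have hkT : (k : ℕ) ≤ T := by omega
        by_cases h6 : I a < X T a ω + τ
        · have h7 : X T (a + 1) ω = X 0 (a + 1) ω := by
            by_contra h8
            exact hcω ⟨h6, h8⟩
          have h7' : X T (a + 1) ω' = X 0 (a + 1) ω' := by
            by_contra h8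
            exact hcω' ⟨by rw [y1 T le_rfl]; exact h6, h8⟩
          have m1 := h.mono' hω (Nat.zero_le k) hkT (a := a + 1) (by omega)
          have m2 := h.mono' hω hkT le_rfl (a := a + 1) (by omega)
          have m1' := h.mono' hω' (Nat.zero_le k) hkT (a := a + 1) (by omega)
          have m2' := h.mono' hω' hkT le_rfl (a := a + 1) (by omega)
          have m3 := y2 (a + 1) (by omega)
          omega
        · have m2 := h.mono' hω hkT le_rfl (a := a) (by omega)
          have m2' := h.mono' hω' hkT le_rfl (a := a) (by omega)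
          have m3 := y1 T le_rfl
          rw [h.lag ω hω k hkT a ha (by omega), h.lag ω' hω' k hkT a ha (by omega), y1 k hkT])
  have h4 : Q.ex (fun ω => Real.log ((if c ω then L ^ T else 1 : ℕ) : ℝ)) =
      Q.ex (fun ω => if c ω then (1 : ℝ) else 0) * (T * Real.log (L : ℝ)) := by
    rw [mul_comm, ← Q.ex_const_mul]
    refine Q.ex_congr fun ω _ => ?_
    split_ifs
    · rw [Nat.cast_pow, Real.log_pow, mul_one]
    · simp
  rw [h4] at h3
  have h5 : hc Q (fun ω (k : Fin (T + 1)) => X k (a + 1) ω) (fun ω => (decide (c ω), Z ω)) ≤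
      Q.ex (fun ω => if c ω then (1 : ℝ) else 0) * (T * Real.log (L : ℝ)) := h3
  have h6 : Q.ex (fun ω => if c ω then (1 : ℝ) else 0) * (Real.log (1 / s) + T * Real.log (L : ℝ)) =
      Q.ex (fun ω => if c ω then (1 : ℝ) else 0) * Real.log (1 / s) +
        Q.ex (fun ω => if c ω then (1 : ℝ) else 0) * (T * Real.log (L : ℝ)) := by ring
  rw [h6]
  linarith

/-- chain rule over the levels -/
theorem chain {s : ℝ} (hs : 0 < s) (hs2 : s ≤ 1 / 2) : ∀ m ≤ n,
    hc Q (fun ω (a : Fin (m + 1)) (k : Fin (T + 1)) => X k a ω) (fun ω (a : Fin (n + 1)) => X 0 a ω) ≤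
      T * Real.log (I 0 + 1) + ∑ a ∈ Finset.range m,
        (Q.ex (fun ω => if I a < X T a ω + τ ∧ X T (a + 1) ω ≠ X 0 (a + 1) ω then (1 : ℝ) else 0) *
          (Real.log (1 / s) + T * Real.log ((I (a + 1) + 2 * τ - I a : ℕ) : ℝ)) + 2 * s) := by
  intro m
  induction m with
  | zero =>
    intro _
    rw [Finset.range_zero, Finset.sum_empty, add_zero]
    refine (hc_le_log Q _ _ ((I 0 + 1) ^ T) fun ω hω => ?_).trans (le_of_eq (by push_cast; rw [Real.log_pow]))
    classical
    refine ⟨Fintype.piFinset (fun _ : Fin (0 + 1) => Fintype.piFinset (fun k : Fin (T + 1) =>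
      if (k : ℕ) = 0 then {X 0 0 ω} else Finset.range (I 0 + 1))), ?_, ?_⟩
    · rw [Fintype.card_piFinset]
      simp only [Fintype.card_piFinset]
      rw [Fin.prod_univ_succ, Fin.prod_univ_zero, mul_one, Fin.prod_univ_succ]
      simp
    · intro ω' hω' e
      rw [Fintype.mem_piFinset]
      intro a
      rw [Fintype.mem_piFinset]
      intro k
      have ha : (a : ℕ) = 0 := by omega
      have hkT : (k : ℕ) ≤ T := by omega
      simp only [ha]
      split_ifs with h1
      · rw [Finset.mem_singleton, h1]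
        have := congrFun e ⟨0, by omega⟩
        simpa using this
      · rw [Finset.mem_range]
        have := h.le ω' hω' k hkT 0 (Nat.zero_le _)
        omega
  | succ m ih =>
    intro hm
    have h1 := ih (by omega)
    have h2 := h.step (a := m) (by omega) hs hs2
    rw [Finset.sum_range_succ]
    have h3 := hc_pair Q (fun ω (a : Fin (m + 1)) (k : Fin (T + 1)) => X k a ω)
      (fun ω (k : Fin (T + 1)) => X k (m + 1) ω) (fun ω (a : Fin (n + 1)) => X 0 a ω)
    have h4 := hc_mono_left Q (X := fun ω (a : Fin (m + 1 + 1)) (k : Fin (T + 1)) => X k a ω)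
      (X' := fun ω => ((fun (a : Fin (m + 1)) (k : Fin (T + 1)) => X k a ω),
      (fun (k : Fin (T + 1)) => X k (m + 1) ω))) (Y := fun ω (a : Fin (n + 1)) => X 0 a ω) (by
        intro ω ω' _ _ e
        simp only [Prod.mk.injEq] at e
        obtain ⟨⟨e1, e2⟩, -⟩ := e
        funext a k
        by_cases ha : (a : ℕ) < m + 1
        · have := congrFun (congrFun e1 ⟨a, ha⟩) k
          simpa using this
        · have ha' : (a : ℕ) = m + 1 := by omega
          have := congrFun e2 k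
          simpa [ha'] using this)
    have h5 := hc_mono_right Q (fun ω (k : Fin (T + 1)) => X k (m + 1) ω)
      (Y := fun ω => ((fun (k : Fin (T + 1)) => X k m ω), (fun (a : Fin (n + 1)) => X 0 a ω)))
      (Y' := fun ω => ((fun (a : Fin (m + 1)) (k : Fin (T + 1)) => X k a ω), (fun (a : Fin (n + 1)) => X 0 a ω))) (by
        intro ω ω' _ _ e
        simp only [Prod.mk.injEq] at e ⊢
        refine ⟨?_, e.2⟩
        funext k
        have := congrFun (congrFun e.1 ⟨m, by omega⟩) k
        simpa using this)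
    linarith

omit h in
theorem log_split {L Λ : ℝ} (hL : 0 < L) (hΛ : 0 < Λ) : Real.log L ≤ Real.log Λ + L / Λ := by
  have h1 := Real.log_le_sub_one_of_pos (div_pos hL hΛ)
  rw [Real.log_div hL.ne' hΛ.ne'] at h1
  linarith

/-- **[LAGW]** -/
theorem lagw {D : ℕ} (hD : τ < D) {s Λ : ℝ} (hs : 0 < s) (hs2 : s ≤ 1 / 2) (hΛ : 1 ≤ Λ) :
    hc Q (fun ω (a : Fin (n + 1)) (k : Fin (T + 1)) => X k a ω) (fun ω (a : Fin (n + 1)) => X 0 a ω) ≤
      ((n : ℝ) / (D - τ) + 1 + ∑ a ∈ Finset.range n, Q.ex (fun ω => (Ph I D (a + 1) (X 0 (a + 1) ω) : ℝ) -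
        Ph I D (a + 1) (X T (a + 1) ω))) * (Real.log (1 / s) + T * Real.log Λ) + 2 * s * n +
        T * ((I n + 2 * τ * n) / Λ) + T * Real.log (I 0 + 1) := by
  classical
  have hch := h.chain hs hs2 n le_rfl
  have hτ := h.τ1
  set p : ℕ → ℝ := fun a => Q.ex (fun ω => if I a < X T a ω + τ ∧ X T (a + 1) ω ≠ X 0 (a + 1) ω then (1 : ℝ) else 0) with hp
  have hp0 : ∀ a, 0 ≤ p a := fun a => Q.ex_nonneg fun ω _ => by split_ifs <;> norm_num
  have hp1 : ∀ a, p a ≤ 1 := fun a => by
    have : p a ≤ Q.ex (fun _ => (1 : ℝ)) := Q.ex_mono fun ω _ => by split_ifs <;> norm_num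
    rwa [Q.ex_const] at this
  have hs1 : 0 ≤ Real.log (1 / s) := by
    refine Real.log_nonneg ?_
    rw [le_div_iff₀ hs]
    linarith
  have hΛ0 : 0 < Λ := by linarith
  have hΛ1 : 0 ≤ Real.log Λ := Real.log_nonneg hΛ
  have hT0 : (0 : ℝ) ≤ T := Nat.cast_nonneg _
  -- the single terms
  have hterm : ∀ a ∈ Finset.range n, p a * (Real.log (1 / s) + T * Real.log ((I (a + 1) + 2 * τ - I a : ℕ) : ℝ)) + 2 * s ≤
      p a * (Real.log (1 / s) + T * Real.log Λ) + (T * (((I (a + 1) : ℝ) + 2 * τ - I a) / Λ) + 2 * s) := by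
    intro a ha
    have ha' : a < n := Finset.mem_range.1 ha
    have hI := h.I1 a ha'
    have hcast : ((I (a + 1) + 2 * τ - I a : ℕ) : ℝ) = (I (a + 1) : ℝ) + 2 * τ - I a := by
      rw [Nat.cast_sub (by omega)]
      push_cast
      ring
    have hpos : (0 : ℝ) < ((I (a + 1) + 2 * τ - I a : ℕ) : ℝ) := by
      have : 0 < I (a + 1) + 2 * τ - I a := by omega
      exact_mod_cast this
    have h1 := log_split hpos hΛ0
    rw [hcast] at h1 hpos ⊢
    have h2 : p a * (T * Real.log ((I (a + 1) : ℝ) + 2 * τ - I a)) ≤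
        p a * (T * Real.log Λ) + T * (((I (a + 1) : ℝ) + 2 * τ - I a) / Λ) := by
      have h3 : p a * (T * Real.log ((I (a + 1) : ℝ) + 2 * τ - I a)) ≤
          p a * (T * (Real.log Λ + ((I (a + 1) : ℝ) + 2 * τ - I a) / Λ)) :=
        mul_le_mul_of_nonneg_left (mul_le_mul_of_nonneg_left h1 hT0) (hp0 a)
      have h4 : p a * (T * (((I (a + 1) : ℝ) + 2 * τ - I a) / Λ)) ≤ 1 * (T * (((I (a + 1) : ℝ) + 2 * τ - I a) / Λ)) :=
        mul_le_mul_of_nonneg_right (hp1 a) (by positivity)
      nlinarith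
    nlinarith
  have hsum := Finset.sum_le_sum hterm
  have hR : ∑ a ∈ Finset.range n, (p a * (Real.log (1 / s) + T * Real.log Λ) +
      (T * (((I (a + 1) : ℝ) + 2 * τ - I a) / Λ) + 2 * s)) = (∑ a ∈ Finset.range n, p a) * (Real.log (1 / s) + T * Real.log Λ) +
      (T * ((∑ a ∈ Finset.range n, ((I (a + 1) : ℝ) + 2 * τ - I a)) / Λ) + n * (2 * s)) := by
    rw [Finset.sum_add_distrib, ← Finset.sum_mul, Finset.sum_add_distrib, ← Finset.mul_sum, ← Finset.sum_div, Finset.sum_const,
      Finset.card_range, nsmul_eq_mul]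
  rw [hR] at hsum
  have htel : ∑ a ∈ Finset.range n, ((I (a + 1) : ℝ) + 2 * τ - I a) = I n - I 0 + 2 * τ * n := by
    have : ∀ a ∈ Finset.range n, ((I (a + 1) : ℝ) + 2 * τ - I a) = ((I (a + 1) : ℝ) - I a) + 2 * τ := fun a _ => by ring
    rw [Finset.sum_congr rfl this, Finset.sum_add_distrib, Finset.sum_range_sub (fun a => (I a : ℝ)), Finset.sum_const,
      Finset.card_range, nsmul_eq_mul]
    ring
  rw [htel] at hsum
  have hch' := hch.trans (add_le_add_right hsum _)
  clear hch hsum hR hterm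
  -- the number of payments
  have hpay : ∑ a ∈ Finset.range n, p a ≤ (n : ℝ) / (D - τ) + 1 +
      ∑ a ∈ Finset.range n, Q.ex (fun ω => (Ph I D (a + 1) (X 0 (a + 1) ω) : ℝ) - Ph I D (a + 1) (X T (a + 1) ω)) := by
    rw [hp]
    have e1 : ∀ f : ℕ → Ω → ℝ, ∑ a ∈ Finset.range n, Q.ex (f a) = Q.ex (fun ω => ∑ a ∈ Finset.range n, f a ω) := by
      intro f
      unfold Law.ex
      rw [Finset.sum_comm]
      refine Finset.sum_congr rfl fun ω _ => ?_
      rw [Finset.mul_sum]
    rw [e1, e1]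
    have e2 : Q.ex (fun _ => (n : ℝ) / (D - τ) + 1) = (n : ℝ) / (D - τ) + 1 := by rw [Q.ex_const]
    rw [← e2, ← Q.ex_add]
    refine Q.ex_mono fun ω hω => ?_
    have hDτ : (0 : ℝ) < (D : ℝ) - τ := by
      have : (τ : ℝ) < D := by exact_mod_cast hD
      linarith
    have st := starts (τ := τ) (D := D) n (fun a => I a - X T a ω) (fun a ha h1 => by
      have h2 := h.lag ω hω T le_rfl a ha (by omega)
      have h3 := h.I1 a ha
      simp only [h2]
      omega)
    have st' : (((Finset.range n).filter fun a => I a - X T a ω < τ ∧ D ≤ I (a + 1) - X T (a + 1) ω).card : ℝ) ≤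
        (n : ℝ) / (D - τ) + 1 := by
      have h4 : (((Finset.range n).filter fun a => I a - X T a ω < τ ∧ D ≤ I (a + 1) - X T (a + 1) ω).card : ℝ) * ((D : ℝ) - τ) ≤
          n + ((D : ℝ) - τ) := by
        have h5 : ((D - τ : ℕ) : ℝ) = (D : ℝ) - τ := by rw [Nat.cast_sub hD.le]
        rw [← h5]
        exact_mod_cast st
      rw [← sub_nonneg] at h4 ⊢
      have h6 : ((n : ℝ) / (D - τ) + 1 - (((Finset.range n).filter fun a => I a - X T a ω < τ ∧
          D ≤ I (a + 1) - X T (a + 1) ω).card : ℝ)) = (n + ((D : ℝ) - τ) - (((Finset.range n).filter fun a =>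
          I a - X T a ω < τ ∧ D ≤ I (a + 1) - X T (a + 1) ω).card : ℝ) * ((D : ℝ) - τ)) / ((D : ℝ) - τ) := by
        field_simp
      rw [h6]
      exact div_nonneg h4 hDτ.le
    have e3 : ∑ a ∈ Finset.range n, (if I a < X T a ω + τ ∧ X T (a + 1) ω ≠ X 0 (a + 1) ω then (1 : ℝ) else 0) ≤
        ∑ a ∈ Finset.range n, ((if I a - X T a ω < τ ∧ D ≤ I (a + 1) - X T (a + 1) ω then (1 : ℝ) else 0) +
          ((Ph I D (a + 1) (X 0 (a + 1) ω) : ℝ) - Ph I D (a + 1) (X T (a + 1) ω))) := by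
      refine Finset.sum_le_sum fun a ha => ?_
      have ha' : a < n := Finset.mem_range.1 ha
      have hanti : (Ph I D (a + 1) (X T (a + 1) ω) : ℝ) ≤ Ph I D (a + 1) (X 0 (a + 1) ω) := by
        exact_mod_cast Ph_anti I D (a + 1) (h.mono' hω (Nat.zero_le T) le_rfl (by omega))
      by_cases hc : I a < X T a ω + τ ∧ X T (a + 1) ω ≠ X 0 (a + 1) ω
      · rw [if_pos hc]
        rcases h.pay_le (D := D) hω ha' hc with h7 | h7
        · rw [if_pos h7]
          linarith
        · have h8 : (Ph I D (a + 1) (X T (a + 1) ω) : ℝ) + 1 ≤ Ph I D (a + 1) (X 0 (a + 1) ω) := by exact_mod_cast h7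
          split_ifs <;> linarith
      · rw [if_neg hc]
        split_ifs <;> linarith
    rw [Finset.sum_add_distrib] at e3
    have e4 : ∑ a ∈ Finset.range n, (if I a - X T a ω < τ ∧ D ≤ I (a + 1) - X T (a + 1) ω then (1 : ℝ) else 0) =
        (((Finset.range n).filter fun a => I a - X T a ω < τ ∧ D ≤ I (a + 1) - X T (a + 1) ω).card : ℝ) := by
      rw [Finset.sum_boole]
    rw [e4] at e3
    linarith
  have hmul := mul_le_mul_of_nonneg_right hpay (show 0 ≤ Real.log (1 / s) + T * Real.log Λ by positivity)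
  have hI0 : T * (((I n : ℝ) - I 0 + 2 * τ * n) / Λ) ≤ T * (((I n : ℝ) + 2 * τ * n) / Λ) := by
    refine mul_le_mul_of_nonneg_left ?_ hT0
    refine div_le_div_of_nonneg_right ?_ hΛ0.le
    have : (0 : ℝ) ≤ I 0 := Nat.cast_nonneg _
    linarith
  linarith

end Hy

/-! ### windows -/

/-- the costs of the windows telescope -/
theorem win_sum (Q : Law Ω) (n : ℕ) (I : ℕ → ℕ) (D : ℕ) (X : ℕ → ℕ → Ω → ℕ) (c : ℕ → ℕ) (J : ℕ) :
    ∑ j ∈ Finset.range J, ∑ a ∈ Finset.range n, Q.ex (fun ω => (Ph I D (a + 1) (X (c j) (a + 1) ω) : ℝ) -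
      Ph I D (a + 1) (X (c (j + 1)) (a + 1) ω)) ≤ n * D := by
  rw [Finset.sum_comm]
  have h1 : ∀ a ∈ Finset.range n, ∑ j ∈ Finset.range J, Q.ex (fun ω => (Ph I D (a + 1) (X (c j) (a + 1) ω) : ℝ) -
      Ph I D (a + 1) (X (c (j + 1)) (a + 1) ω)) ≤ D := by
    intro a _
    have h2 : ∀ j ∈ Finset.range J, Q.ex (fun ω => (Ph I D (a + 1) (X (c j) (a + 1) ω) : ℝ) -
        Ph I D (a + 1) (X (c (j + 1)) (a + 1) ω)) = Q.ex (fun ω => (Ph I D (a + 1) (X (c j) (a + 1) ω) : ℝ)) -
        Q.ex (fun ω => (Ph I D (a + 1) (X (c (j + 1)) (a + 1) ω) : ℝ)) := fun j _ => Q.ex_sub _ _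
    rw [Finset.sum_congr rfl h2, Finset.sum_range_sub' (fun j => Q.ex (fun ω => (Ph I D (a + 1) (X (c j) (a + 1) ω) : ℝ)))]
    have h3 : Q.ex (fun ω => (Ph I D (a + 1) (X (c 0) (a + 1) ω) : ℝ)) ≤ Q.ex (fun _ => (D : ℝ)) :=
      Q.ex_mono fun ω _ => by exact_mod_cast Ph_le I D (a + 1) _
    rw [Q.ex_const] at h3
    have h4 : 0 ≤ Q.ex (fun ω => (Ph I D (a + 1) (X (c J) (a + 1) ω) : ℝ)) := Q.ex_nonneg fun ω _ => Nat.cast_nonneg _
    linarith
  refine (Finset.sum_le_sum h1).trans ?_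
  rw [Finset.sum_const, Finset.card_range, nsmul_eq_mul]

/-- a cheap window -/
theorem exists_win (Q : Law Ω) (n : ℕ) (I : ℕ → ℕ) (D : ℕ) (X : ℕ → ℕ → Ω → ℕ) (c : ℕ → ℕ) {J : ℕ} (hJ : 0 < J) :
    ∃ j < J, ∑ a ∈ Finset.range n, Q.ex (fun ω => (Ph I D (a + 1) (X (c j) (a + 1) ω) : ℝ) -
      Ph I D (a + 1) (X (c (j + 1)) (a + 1) ω)) ≤ n * D / J := by
  by_contra hcon
  push Not at hcon
  have h1 := win_sum Q n I D X c J
  have h2 : ∑ _j ∈ Finset.range J, (n : ℝ) * D / J < ∑ j ∈ Finset.range J, ∑ a ∈ Finset.range n,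
      Q.ex (fun ω => (Ph I D (a + 1) (X (c j) (a + 1) ω) : ℝ) - Ph I D (a + 1) (X (c (j + 1)) (a + 1) ω)) :=
    Finset.sum_lt_sum_of_nonempty ⟨0, Finset.mem_range.2 hJ⟩ fun j hj => hcon j (Finset.mem_range.1 hj)
  have hJ' : (0 : ℝ) < J := by exact_mod_cast hJ
  rw [Finset.sum_const, Finset.card_range, nsmul_eq_mul, mul_div_cancel₀ _ hJ'.ne'] at h2
  linarith

end

end Vale.Agent.P106.U.LagW339
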