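import Vale.Agent.P106.U.H339.SubSh
import Vale.Agent.P106.U.H428.Join
import Vale.Agent.P106.U.H465.Meet
import Vale.Agent.P106.U.H543.GrowR
import Vale.Agent.P106.U.H868.Abs
import Vale.Agent.P106.U.H416.Win1

/-!
# P106 / U / H339 : THEOREM SUB at every level `a` of a near-extremal system ([SUBH], helper137; TEXT S1 (5), note 17579; helper205 18905)

* `zla a l t C = (l, fl1 a t, C)` : the letter of the copies.
* `subT_a : PSubTa` : THEOREM SUB for labels of the level `a` (any `a`), copies given `zla a l t C`.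
* `subA` : near-extremal system (`NEx`), label `A` of level `a ≤ h`, shape `(b, R)`, `val W ≤ val A + v`; the frames of the two
  copies of `A` agree up to `K 2^X 2^-(R-b)` at the ray `bl a l t` (or `X = R - b`), with
  `lam E X ≤ 2 v + 2 ((β' + ε) a - (β - d) h) - 2 N (D(h) - D(a)) + 2 k' (b + |R - q|) + K`.
* `subH` : `a = h`, `A = W` : `lam E X ≤ 2 (β' + ε - β + d) h + K`, frames of two copies of `W` given `(l, t_h, C)`.
-/

set_option autoImplicit false

namespace Vale.Agent.P106.U.SubA339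

open Finset Vale.Agent.P127 Vale.Agent.P127.Stk Vale.Agent.P127.U Vale.Agent.P106.W Vale.Agent.P106.K Vale.Agent.P106.U
open Vale.Agent.P106.U.H118 (two two_supp two_hc two_hc')
open Vale.Agent.P106.U.H339

/-- the letter of the copies at the level `a` -/
noncomputable def zla {Ω γ : Type} (a : ℕ) (l : Ω → Ry) (t : Ω → ℝ) (C : Ω → γ) : Ω → Ry × ℤ × γ :=
  fun ω => (l ω, fl1 a (t ω), C ω)

theorem bla_congr {a : ℕ} {l l' : Ry} {t t' : ℝ} (h : l = l') (ht : fl1 a t = fl1 a t') : bl a l t = bl a l' t' := by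
  subst h
  simp only [bl, Vale.Agent.P127.U.qa, ht]

/-- **[SUB]** at the level `a` -/
def PSubTa : Prop :=
  ∀ c lam : ℝ, 1 ≤ c → 0 ≤ lam → lam ≤ 1 → ∃ c' K : ℝ, 1 ≤ c' ∧ 0 ≤ K ∧
    ∀ (Ω : Type) [Fintype Ω] (γ : Type) (P : Law Ω) (l : Ω → Ry) (t : Ω → ℝ) (C : Ω → γ) (L a b R : ℕ) (W : Ω → Cbx),
      b ≤ R →
      (∀ ω, 0 < P.w ω → LbOk c L a (W ω) (l ω) (t ω) ∧ (W ω).u2 = (1 / 2 : ℝ) ^ b ∧ (W ω).u1 = (1 / 2 : ℝ) ^ R) →
      ∃ (X p : Law.GT (zla a l t C) (zla a l t C) → ℕ) (J M : Law.GT (zla a l t C) (zla a l t C) → Cbx),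
        (∀ x, 0 < (two P (zla a l t C)).w x → X x ≤ R - b ∧ (X x : ℝ) ≤ 2 * p x + K ∧ p x ≤ X x ∧
          (Agr (K * (2 ^ X x * (1 / 2) ^ (R - b))) (W x.fst) (W x.snd) (bl a (l x.fst) (t x.fst)) ∨ X x = R - b) ∧
          LbOk c' L a (J x) (l x.fst) (t x.fst) ∧ (J x).u2 = (1 / 2 : ℝ) ^ b ∧ (J x).u1 = (1 / 2 : ℝ) ^ (R - X x) ∧
          LbOk c' L a (M x) (l x.fst) (t x.fst) ∧ (M x).u2 = (1 / 2 : ℝ) ^ (b + p x) ∧ (M x).u1 = (1 / 2 : ℝ) ^ R) ∧
        2 * val lam P l t C a W + 3 / 2 * lam * Real.log 2 * (two P (zla a l t C)).ex (fun x => (X x : ℝ)) -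
            3 * Stk.hc (two P (zla a l t C)) X (fun _ => ()) - K ≤
          val lam (two P (zla a l t C)) (fun x => l x.fst) (fun x => t x.fst) (fun x => C x.fst) a J +
          val lam (two P (zla a l t C)) (fun x => l x.fst) (fun x => t x.fst) (fun x => C x.fst) a M

/-- **THEOREM SUB** at the level `a` -/
theorem subT_lev (hJ : PJoin) (hM : PMeet) : PSubTa := by
  classical
  intro c lam hc1' hl0 hl1
  obtain ⟨c1, N, hc1, HJ⟩ := hJ c hc1'
  obtain ⟨c2, C2, hc2, HM⟩ := hM c hc1'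
  refine ⟨max c1 c2, (1 + 6 * c) + C2 + |Real.log N| + |Real.log C2| + C2 * Real.log 2, le_max_of_le_left hc1, by positivity, ?_⟩
  intro Ω _ γ P l t C L a b R W hbR hW
  obtain ⟨Jf, HJf⟩ := HJ b R hbR
  set Z := zla a l t C with hZ
  set G := two P Z with hG
  -- common support
  have key : ∀ x : Law.GT Z Z, 0 < G.w x → 0 < P.w x.fst ∧ 0 < P.w x.snd := fun x hx => two_supp hx
  have hbl : ∀ x : Law.GT Z Z, bl a (l x.snd) (t x.snd) = bl a (l x.fst) (t x.fst) := fun x =>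
    bla_congr (congrArg Prod.fst x.eq).symm (congrArg (fun z => z.2.1) x.eq).symm
  have hShp : ∀ ω, 0 < P.w ω → Shp c b R (W ω) := fun ω hω =>
    ⟨(hW ω hω).2.1, (hW ω hω).2.2, (hW ω hω).1.α2, (hW ω hω).1.κ2⟩
  have hBin1 : ∀ x : Law.GT Z Z, 0 < G.w x → Bin c (W x.fst) 0 (bl a (l x.fst) (t x.fst)) := fun x hx =>
    (hW _ (key x hx).1).1.inn
  have hBin2 : ∀ x : Law.GT Z Z, 0 < G.w x → Bin c (W x.snd) 0 (bl a (l x.fst) (t x.fst)) := fun x hx => by
    rw [← hbl x]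
    exact (hW _ (key x hx).2).1.inn
  -- data of the pair
  have hpair : ∀ B B' : Cbx, ∃ (Xv p n : ℕ) (Mv : ℕ → Cbx), (∃ x : Law.GT Z Z, 0 < G.w x ∧ W x.fst = B ∧ W x.snd = B') →
      Xv ≤ R - b ∧ (∃ l0, Bin c B 0 l0 ∧ Bin c B' 0 l0 ∧ (Agr (2 ^ Xv * (1 / 2) ^ (R - b)) B B' l0 ∨ Xv = R - b)) ∧
      b + p ≤ R ∧ Xv ≤ 2 * p + C2 ∧ p ≤ Xv ∧ (n : ℝ) * 2 ^ Xv ≤ C2 * 2 ^ (3 * p) ∧
      (∀ i < n, Shp c2 (b + p) R (Mv i)) ∧ ∀ r, Bin c B 0 r → Bin c B' 0 r → ∃ i < n, Bin c2 (Mv i) 0 r := by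
    intro B B'
    by_cases hcm : ∃ x : Law.GT Z Z, 0 < G.w x ∧ W x.fst = B ∧ W x.snd = B'
    · obtain ⟨x, hx, e1, e2⟩ := hcm
      have s1 : Shp c b R B := e1 ▸ hShp _ (key x hx).1
      have s2 : Shp c b R B' := e2 ▸ hShp _ (key x hx).2
      have i1 : Bin c B 0 (bl a (l x.fst) (t x.fst)) := e1 ▸ hBin1 x hx
      have i2 : Bin c B' 0 (bl a (l x.fst) (t x.fst)) := e2 ▸ hBin2 x hx
      have hex : ∃ j, Agr (2 ^ j * (1 / 2) ^ (R - b)) B B' (bl a (l x.fst) (t x.fst)) ∨ j = R - b := ⟨R - b, Or.inr rfl⟩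
      have m1 := Nat.find_spec hex
      have m2 : Nat.find hex ≤ R - b := Nat.find_min' hex (Or.inr rfl)
      have m3 : Nat.find hex = 0 ∨
          ¬ Agr (2 ^ (Nat.find hex - 1) * (1 / 2) ^ (R - b)) B B' (bl a (l x.fst) (t x.fst)) := by
        rcases Nat.eq_zero_or_pos (Nat.find hex) with h | h
        · exact Or.inl h
        · have := Nat.find_min hex (m := Nat.find hex - 1) (by omega)
          push Not at this
          exact Or.inr this.1
      obtain ⟨p, n, q1, q2, q3, q4, M, q5, q6⟩ := HM b R (Nat.find hex) B B' _ hbR m2 s1 s2 i1 i2 m1 m3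
      refine ⟨Nat.find hex, p, n, fun i => if h : i < n then M ⟨i, h⟩ else B, fun _ => ⟨m2, ⟨_, i1, i2, m1⟩, q1, q2, q3, q4, ?_, ?_⟩⟩
      · intro i hi
        simp only [dif_pos hi]
        exact q5 ⟨i, hi⟩
      · intro r r1 r2
        obtain ⟨i, hi⟩ := q6 r r1 r2
        refine ⟨i, i.2, ?_⟩
        simp only [dif_pos i.2]
        exact hi
    · exact ⟨0, 0, 0, fun _ => B, fun h => absurd h hcm⟩
  choose Xf pf nf Mf Hp using hpair
  -- property on the support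
  have Hx : ∀ x : Law.GT Z Z, 0 < G.w x → _ := fun x hx => Hp (W x.fst) (W x.snd) ⟨x, hx, rfl, rfl⟩
  have hi : ∀ x : Law.GT Z Z, ∃ i : ℕ, 0 < G.w x →
      i < nf (W x.fst) (W x.snd) ∧ Bin c2 (Mf (W x.fst) (W x.snd) i) 0 (bl a (l x.fst) (t x.fst)) := by
    intro x
    by_cases hx : 0 < G.w x
    · obtain ⟨i, h1, h2⟩ := (Hx x hx).2.2.2.2.2.2.2 _ (hBin1 x hx) (hBin2 x hx)
      exact ⟨i, fun _ => ⟨h1, h2⟩⟩
    · exact ⟨0, fun h => absurd h hx⟩
  choose ix Hi using hi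
  refine ⟨fun x => Xf (W x.fst) (W x.snd), fun x => pf (W x.fst) (W x.snd), fun x => Jf (Xf (W x.fst) (W x.snd)) (W x.fst),
    fun x => Mf (W x.fst) (W x.snd) (ix x), ?_, ?_⟩
  · intro x hx
    obtain ⟨a1, ⟨l0, a2, a3, a4⟩, a5, a6, a7, a8, a9, a10⟩ := Hx x hx
    obtain ⟨b1, b2⟩ := Hi x hx
    have w1 := hW _ (key x hx).1
    have s1 := hShp _ (key x hx).1
    have s2 := hShp _ (key x hx).2
    have j1 := (HJf (Xf (W x.fst) (W x.snd)) a1).1 (W x.fst) s1
    have m1 := a9 _ b1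
    have hRL : a + R ≤ L := by
      obtain ⟨b', R', e1, e2, e3, e4⟩ := w1.1.sh
      have : R = R' := half_inj (w1.2.2.symm.trans e2)
      omega
    have hK1 : (C2 : ℝ) ≤ (1 + 6 * c) + C2 + |Real.log N| + |Real.log C2| + C2 * Real.log 2 := by
      have : 0 ≤ (C2 : ℝ) * Real.log 2 := by positivity
      have := abs_nonneg (Real.log N)
      have := abs_nonneg (Real.log C2)
      linarith
    have hK2 : (1 + 6 * c) ≤ (1 + 6 * c) + C2 + |Real.log N| + |Real.log C2| + C2 * Real.log 2 := by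
      have : 0 ≤ (C2 : ℝ) * Real.log 2 := by positivity
      have := abs_nonneg (Real.log N)
      have := abs_nonneg (Real.log C2)
      have : (0:ℝ) ≤ C2 := Nat.cast_nonneg _
      linarith
    refine ⟨a1, ?_, a7, ?_, ?_, j1.1.u2, j1.1.u1, ?_, m1.u2, m1.u1⟩
    · have : ((Xf (W x.fst) (W x.snd) : ℕ) : ℝ) ≤ 2 * (pf (W x.fst) (W x.snd) : ℕ) + C2 := by exact_mod_cast a6
      linarith
    · rcases a4 with a4 | a4
      · left
        have h1 := Agr_pass (c := c) (by rw [s1.u2]; positivity) (by linarith) a2 (hBin1 x hx) a4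
        obtain ⟨σ, g1, g2, g3, g4⟩ := h1
        have h2 : (1 + 6 * c) * (2 ^ Xf (W x.fst) (W x.snd) * (1 / 2 : ℝ) ^ (R - b)) ≤
            ((1 + 6 * c) + C2 + |Real.log N| + |Real.log C2| + C2 * Real.log 2) *
              (2 ^ Xf (W x.fst) (W x.snd) * (1 / 2 : ℝ) ^ (R - b)) := mul_le_mul_of_nonneg_right hK2 (by positivity)
        exact ⟨σ, g1, fun k => (g2 k).trans h2, g3.trans h2, g4.trans h2⟩
      · right
        exact a4
    · refine ⟨⟨b, R - Xf (W x.fst) (W x.snd), j1.1.u2, j1.1.u1, by omega, by omega⟩, j1.1.α2.trans (le_max_left _ _),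
        j1.1.κ2.trans (le_max_left _ _), Bin_mono (le_max_left _ _) (j1.2 _ (hBin1 x hx)) ?_ ?_⟩
      · rw [j1.1.u1]; positivity
      · rw [j1.1.u2]; positivity
    · refine ⟨⟨b + pf (W x.fst) (W x.snd), R, m1.u2, m1.u1, a5, by omega⟩, m1.α2.trans (le_max_right _ _),
        m1.κ2.trans (le_max_right _ _), Bin_mono (le_max_right _ _) b2 ?_ ?_⟩
      · rw [m1.u1]; positivity
      · rw [m1.u2]; positivity
  · -- the inequality
    set X : Law.GT Z Z → ℕ := fun x => Xf (W x.fst) (W x.snd) with hXd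
    set p : Law.GT Z Z → ℕ := fun x => pf (W x.fst) (W x.snd) with hpd
    set J : Law.GT Z Z → Cbx := fun x => Jf (Xf (W x.fst) (W x.snd)) (W x.fst) with hJd
    set M : Law.GT Z Z → Cbx := fun x => Mf (W x.fst) (W x.snd) (ix x) with hMd
    have h1 := join_ent P l (fun ω => (fl1 a (t ω), C ω)) W X J N (by
        intro x y _ _ e
        simp only [Prod.mk.injEq] at e
        show Jf (X x) (W x.fst) = Jf (X y) (W y.fst)
        rw [e.1, e.2]) (by
        intro x hx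
        have a := Hx x hx
        obtain ⟨S, hS, HS⟩ := (HJf (X x) a.1).2 (W x.snd) (hShp _ (key x hx).2)
        refine ⟨S, hS, fun x' hx' e1 e2 => ?_⟩
        obtain ⟨a1, ⟨l0, a2, a3, a4⟩, _⟩ := Hx x' hx'
        have e2' : Xf (W x'.fst) (W x'.snd) = X x := e2
        rw [e2'] at a4
        show Jf (X x') (W x'.fst) ∈ S
        rw [e2]
        rw [e1] at a3 a4
        exact HS (W x'.fst) l0 (hShp _ (key x' hx').1) a2 a3 a4)
    have h2 := meet_ent G (fun x => l x.fst) (fun x => (fl1 a (t x.fst), C x.fst)) (fun x => (W x.fst, W x.snd)) M ix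
      (fun v => nf v.1 v.2) (by
        intro x y _ _ e
        simp only [Prod.mk.injEq] at e
        show Mf (W x.fst) (W x.snd) (ix x) = Mf (W y.fst) (W y.snd) (ix y)
        rw [e.1.1, e.1.2, e.2]) (fun x hx => (Hi x hx).1)
    have h3 : G.ex (fun x => Real.log (nf (W x.fst) (W x.snd))) ≤
        Real.log C2 + Real.log 2 * (3 * G.ex (fun x => (p x : ℝ)) - G.ex (fun x => (X x : ℝ))) := by
      have e : Real.log C2 + Real.log 2 * (3 * G.ex (fun x => (p x : ℝ)) - G.ex (fun x => (X x : ℝ))) =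
          G.ex (fun x => Real.log C2 + Real.log 2 * (3 * (p x : ℝ) - X x)) := by
        rw [G.ex_add, G.ex_const, G.ex_const_mul, G.ex_sub, G.ex_const_mul]
      rw [e]
      refine G.ex_mono fun x hx => ?_
      obtain ⟨a1, _, a5, a6, a7, a8, a9, a10⟩ := Hx x hx
      have hn : 0 < nf (W x.fst) (W x.snd) := lt_of_le_of_lt (Nat.zero_le _) (Hi x hx).1
      have hn' : (0 : ℝ) < nf (W x.fst) (W x.snd) := by exact_mod_cast hn
      have hC : (0 : ℝ) < C2 := by
        by_contra hcon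
        have h0 : (C2 : ℝ) = 0 := le_antisymm (not_lt.1 hcon) (Nat.cast_nonneg _)
        rw [h0, zero_mul] at a8
        have : 0 < (nf (W x.fst) (W x.snd) : ℝ) * 2 ^ Xf (W x.fst) (W x.snd) := by positivity
        linarith
      have h4 := Real.log_le_log (by positivity) a8
      rw [Real.log_mul hn'.ne' (by positivity), Real.log_mul hC.ne' (by positivity), Real.log_pow, Real.log_pow] at h4
      push_cast at h4
      show Real.log (nf (W x.fst) (W x.snd)) ≤ Real.log C2 + Real.log 2 * (3 * ((pf (W x.fst) (W x.snd) : ℕ) : ℝ) - (Xf (W x.fst) (W x.snd) : ℕ))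
      linarith
    have h5 : G.ex (fun x => (X x : ℝ)) ≤ 2 * G.ex (fun x => (p x : ℝ)) + C2 := by
      have e : 2 * G.ex (fun x => (p x : ℝ)) + C2 = G.ex (fun x => 2 * (p x : ℝ) + C2) := by
        rw [G.ex_add, G.ex_const, G.ex_const_mul]
      rw [e]
      refine G.ex_mono fun x hx => ?_
      have a6 := (Hx x hx).2.2.2.1
      exact_mod_cast a6
    have v1 : val lam P l t C a W = hc P l (fun ω => (W ω, fl1 a (t ω), C ω)) + Real.log 2 * ((3 + lam) * b + (1 - lam) * R) +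
        3 * a * Real.log 2 := by
      unfold val
      have : P.ex (fun ω => (3 + lam) * Real.log (W ω).u2 + (1 - lam) * Real.log (W ω).u1) =
          P.ex (fun _ => -(Real.log 2 * ((3 + lam) * b + (1 - lam) * R))) := by
        refine P.ex_congr fun ω hω => ?_
        rw [(hW ω hω).2.1, (hW ω hω).2.2, Real.log_pow, Real.log_pow, one_div, Real.log_inv]
        ring
      rw [this, P.ex_const]
      push_cast
      ring
    have v2 : val lam G (fun x => l x.fst) (fun x => t x.fst) (fun x => C x.fst) a J =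
        hc G (fun x => l x.fst) (fun x => (J x, fl1 a (t x.fst), C x.fst)) +
        Real.log 2 * ((3 + lam) * b + (1 - lam) * R) - Real.log 2 * (1 - lam) * G.ex (fun x => (X x : ℝ)) +
        3 * a * Real.log 2 := by
      unfold val
      have : G.ex (fun x => (3 + lam) * Real.log (J x).u2 + (1 - lam) * Real.log (J x).u1) =
          -(Real.log 2 * ((3 + lam) * b + (1 - lam) * R)) + Real.log 2 * (1 - lam) * G.ex (fun x => (X x : ℝ)) := by
        rw [← G.ex_const_mul, ← G.ex_const (-(Real.log 2 * ((3 + lam) * b + (1 - lam) * R))), ← G.ex_add]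
        refine G.ex_congr fun x hx => ?_
        have a1 := (Hx x hx).1
        have j1 := ((HJf (Xf (W x.fst) (W x.snd)) a1).1 (W x.fst) (hShp _ (key x hx).1)).1
        have j2 : (J x).u2 = (1 / 2 : ℝ) ^ b := j1.u2
        have j3 : (J x).u1 = (1 / 2 : ℝ) ^ (R - X x) := j1.u1
        have a2 : X x ≤ R := by
          have : X x ≤ R - b := a1
          omega
        rw [j2, j3, Real.log_pow, Real.log_pow, one_div, Real.log_inv, Nat.cast_sub a2]
        ring
      rw [this]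
      push_cast
      ring
    have v3 : val lam G (fun x => l x.fst) (fun x => t x.fst) (fun x => C x.fst) a M =
        hc G (fun x => l x.fst) (fun x => (M x, fl1 a (t x.fst), C x.fst)) +
        Real.log 2 * ((3 + lam) * b + (1 - lam) * R) + Real.log 2 * (3 + lam) * G.ex (fun x => (p x : ℝ)) +
        3 * a * Real.log 2 := by
      unfold val
      have : G.ex (fun x => (3 + lam) * Real.log (M x).u2 + (1 - lam) * Real.log (M x).u1) =
          -(Real.log 2 * ((3 + lam) * b + (1 - lam) * R)) + (-(Real.log 2 * (3 + lam))) * G.ex (fun x => (p x : ℝ)) := by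
        rw [← G.ex_const_mul, ← G.ex_const (-(Real.log 2 * ((3 + lam) * b + (1 - lam) * R))), ← G.ex_add]
        refine G.ex_congr fun x hx => ?_
        have a9 := (Hx x hx).2.2.2.2.2.2.1 _ (Hi x hx).1
        have j2 : (M x).u2 = (1 / 2 : ℝ) ^ (b + p x) := a9.u2
        have j3 : (M x).u1 = (1 / 2 : ℝ) ^ R := a9.u1
        rw [j2, j3, Real.log_pow, Real.log_pow, one_div, Real.log_inv]
        push_cast
        ring
      rw [this]
      push_cast
      ring
    rw [v1, v2, v3]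
    have h6 : 0 ≤ hc G X (fun _ => ()) := hc_nonneg _ _ _
    have h7 : 0 ≤ G.ex (fun x => (X x : ℝ)) := G.ex_nonneg fun x _ => Nat.cast_nonneg _
    have hlog : 0 < Real.log 2 := Real.log_pos (by norm_num)
    have h8 := le_abs_self (Real.log N)
    have h9 := le_abs_self (Real.log (C2 : ℝ))
    have h10 : (0 : ℝ) ≤ C2 := Nat.cast_nonneg _
    have h11 : lam * Real.log 2 * G.ex (fun x => (X x : ℝ)) ≤
        lam * Real.log 2 * (2 * G.ex (fun x => (p x : ℝ)) + C2) := mul_le_mul_of_nonneg_left h5 (by positivity)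
    have h12 : lam * Real.log 2 * C2 ≤ Real.log 2 * C2 := by
      have : lam * (Real.log 2 * C2) ≤ 1 * (Real.log 2 * C2) := mul_le_mul_of_nonneg_right hl1 (by positivity)
      linarith
    have h13 : 0 ≤ Real.log 2 * (C2 : ℝ) := by positivity
    have h1' : 2 * hc P l (fun ω => (W ω, (fl1 a (t ω), C ω))) -
        hc G (fun x => l x.fst) (fun x => ((W x.fst, W x.snd), (fl1 a (t x.fst), C x.fst))) -
        2 * hc G X (fun _ => ()) - Real.log N ≤
      hc G (fun x => l x.fst) (fun x => (J x, (fl1 a (t x.fst), C x.fst))) := h1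
    set A1 := hc P l (fun ω => (W ω, (fl1 a (t ω), C ω)))
    set A2 := hc G (fun x => l x.fst) (fun x => ((W x.fst, W x.snd), (fl1 a (t x.fst), C x.fst)))
    set A3 := hc G X (fun _ => ())
    set A4 := hc G (fun x => l x.fst) (fun x => (J x, (fl1 a (t x.fst), C x.fst)))
    set A5 := hc G (fun x => l x.fst) (fun x => (M x, (fl1 a (t x.fst), C x.fst)))
    set EX := G.ex (fun x => (X x : ℝ))
    set Ep := G.ex (fun x => (p x : ℝ))
    nlinarith


theorem subT_a : PSubTa := subT_lev H428.pJoin H465.pMeet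

/-! ### comparison with the near-extremal value -/

section aux

variable {Ω : Type} [Fintype Ω]

theorem pr_fst {ζ : Type} (P : Law Ω) (Z : Ω → ζ) (ω : Ω) : (two P Z).pr (fun x => x.fst) ω = P.w ω := by
  classical
  have hid : P.pr (fun a => a) ω = P.w ω := by
    unfold Law.pr
    rw [Finset.sum_filter, Finset.sum_ite_eq' univ ω]
    simp
  have := Law.glue_pr (P := P) (Q := P) (X₁ := Z) (X₂ := Z) (fun _ => rfl) (fun a => a) ω
  rw [hid] at this
  exact this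

theorem hc_nat {σ : Type*} (Q : Law Ω) (x : Ω → ℕ) (Y : Ω → σ) {θ : ℝ} (hθ : 0 < θ) :
    hc Q x Y ≤ θ * (Real.log 2 * Q.ex (fun ω => (x ω : ℝ))) + H868.Kth θ := by
  have a1 := H868.hc_dist Q (fun w => (x w : ℤ)) (fun _ => (0 : ℤ)) (fun _ => (0 : ℤ)) (fun _ => (0 : ℤ)) Y hθ
  have a2 : Q.ex (fun w => Real.log 2 * (|((x w : ℤ) : ℝ) - ((0 : ℤ) : ℝ)| + |((0 : ℤ) : ℝ) - ((0 : ℤ) : ℝ)|)) =
      Real.log 2 * Q.ex (fun ω => (x ω : ℝ)) := by
    rw [← Q.ex_const_mul]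
    refine Q.ex_congr fun w _ => ?_
    have : (0 : ℝ) ≤ x w := Nat.cast_nonneg _
    simp
  rw [a2] at a1
  refine le_trans (le_of_eq ?_) a1
  refine hc_congr Q ?_ ?_ ?_ ?_
  · intro w w' _ _ e
    simp only [Prod.mk.injEq, Nat.cast_inj] at e
    exact e.1.1
  · intro w w' _ _ e
    simp only [Prod.mk.injEq, Nat.cast_inj] at e ⊢
    exact ⟨e.1, trivial⟩
  · intro w w' _ _ e
    simp only [Prod.mk.injEq] at e
    exact e.2
  · intro w w' _ _ e
    simp only [Prod.mk.injEq]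
    exact ⟨trivial, e⟩

/-- the growth of the deficit is at least that without the letter `G` -/
theorem Dd_grow {γ δ : Type} (P : Law Ω) (l : Ω → Ry) (t : Ω → ℝ) (C : Ω → γ) (G : Ω → δ) {a h : ℕ} (hah : a ≤ h) :
    Dd P l t C h - Dd P l t C a ≤ Dd P l t (fun ω => (C ω, G ω)) h - Dd P l t (fun ω => (C ω, G ω)) a := by
  obtain ⟨w, rfl⟩ := Nat.exists_eq_add_of_le hah
  rw [H416.Dd_sub, H416.Dd_sub]
  have := hc_mono_right P (fun ω => fl1 (a + w) (t ω)) (Y := fun ω => (l ω, fl1 a (t ω), C ω))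
    (Y' := fun ω => (l ω, fl1 a (t ω), (C ω, G ω))) (fun ω ω' _ _ e => by
      simp only [Prod.mk.injEq] at e ⊢
      exact ⟨e.1, e.2.1, e.2.2.1⟩)
  linarith

end aux

/-- LAB for a label whose shape is a function of a number `Y`, without the letter -/
theorem lab_nat (lam N k k' β β' : ℝ) (h0 : 0 < lam) (h1 : lam ≤ 1) (hk : 0 ≤ k) (hkk : k ≤ k')
    (hN : 0 ≤ N) (hF : FIXA lam N k' β') (c c1 : ℝ) (hc : 1 ≤ c) (hcc : c ≤ c1) (ε : ℝ) (hε : 0 < ε) :
    ∃ K : ℝ, 0 ≤ K ∧ ∀ (d : ℝ) (Ω : Type) [Fintype Ω] (γ : Type) (P : Law Ω) (l : Ω → Ry) (t : Ω → ℝ) (C : Ω → γ)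
      (L h q : ℕ) (W : Ω → Cbx), 1 ≤ h → NEx c lam N k β d P l t C L h q W →
      ∀ (Ω' : Type) [Fintype Ω'] (P' : Law Ω') (π : Ω' → Ω), (∀ ω, P'.pr π ω = P.w ω) →
      ∀ (Y : Ω' → ℕ) (a : ℕ) (e : ℕ → ℕ × ℕ) (A : Ω' → Cbx) (θ : ℝ), a ≤ h → 0 < θ →
      (∀ ω, 0 < P'.w ω → LbOk c1 L a (A ω) (l (π ω)) (t (π ω)) ∧ (A ω).u2 = (1 / 2 : ℝ) ^ (e (Y ω)).1 ∧
        (A ω).u1 = (1 / 2 : ℝ) ^ (e (Y ω)).2) →
      val lam P' (fun ω => l (π ω)) (fun ω => t (π ω)) (fun ω => C (π ω)) a A ≤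
        val lam P l t C h W - (β - d) * h * Real.log 2 + (β' + ε) * a * Real.log 2 -
          N * (Dd P l t C h - Dd P l t C a) +
          k' * P'.ex (fun ω => (((e (Y ω)).1 : ℝ) + |((e (Y ω)).2 : ℝ) - q|) * Real.log 2) +
          (2 + N) * (θ * (Real.log 2 * P'.ex (fun ω => (Y ω : ℝ))) + H868.Kth θ) + K := by
  obtain ⟨Kl, hKl, hLab⟩ := GR543.labRC lam N k k' β β' h0.le h1 hk hkk hN hF c c1 hc hcc ε hε
  refine ⟨Kl, hKl, ?_⟩
  intro d Ω _ γ P l t C L h q W hh hne Ω' _ P' π hπ Y a e A θ hah hθ hA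
  have haL : a ≤ L := by
    have := hne.hL
    omega
  have kJ := hLab d Ω γ P l t C L h q W hh hne Ω' P' π hπ ℕ Y a e A haL hA
  have vJ := val_pair (lam := lam) (P := P') (l := fun x => l (π x)) (t := fun x => t (π x)) (C := fun x => C (π x)) (a := a)
    Y A
  have vW : val lam P' (fun x => l (π x)) (fun x => t (π x)) (fun x => C (π x)) h (fun x => W (π x)) = val lam P l t C h W := by
    unfold val
    have e1 := Stk.hc_of_law P' P π hπ l (fun ω => (W ω, fl1 h (t ω), C ω))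
    have e2 := Stk.ex_law_aux P' P π hπ
      (fun ω => (3 + lam) * Real.log (W ω).u2 + (1 - lam) * Real.log (W ω).u1)
    rw [← e1, ← e2]
    rfl
  have wX := val_mono_C (lam := lam) (P := P') (l := fun x => l (π x)) (t := fun x => t (π x)) (a := h)
    (C' := fun x => (C (π x), Y x)) (C := fun x => C (π x)) (fun _ _ _ _ e => (Prod.mk.inj e).1) (fun x => W (π x))
  have dX := Dd_grow P' (fun x => l (π x)) (fun x => t (π x)) (fun x => C (π x)) Y hah
  have dh : Dd P' (fun x => l (π x)) (fun x => t (π x)) (fun x => C (π x)) h = Dd P l t C h := Dd_ext hπ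
  have da : Dd P' (fun x => l (π x)) (fun x => t (π x)) (fun x => C (π x)) a = Dd P l t C a := Dd_ext hπ
  rw [dh, da] at dX
  have nX := mul_le_mul_of_nonneg_left dX hN
  have x2 := hc_nat P' Y (fun x => (A x, fl1 a (t (π x)), C (π x))) hθ
  have x3 := hc_nat P' Y (fun x => (W (π x), fl1 h (t (π x)), C (π x))) hθ
  have x4 := mul_le_mul_of_nonneg_left (hc_nat P' Y (fun x => (l (π x), C (π x))) hθ) hN
  rw [vW] at wX
  linarith

/-- **SUB** against a near-extremal system, any level `a ≤ h` -/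
theorem subA (lam N k k' β β' : ℝ) (h0 : 0 < lam) (h1 : lam ≤ 1) (hk : 0 ≤ k) (hkk : k ≤ k') (hk8 : k' ≤ lam / 8)
    (hN : 0 ≤ N) (hF : FIXA lam N k' β') (c c1 : ℝ) (hc : 1 ≤ c) (hcc : c ≤ c1) (ε : ℝ) (hε : 0 < ε) :
    ∃ K : ℝ, 1 ≤ K ∧ ∀ (d : ℝ) (Ω : Type) [Fintype Ω] (γ : Type) (P : Law Ω) (l : Ω → Ry) (t : Ω → ℝ) (C : Ω → γ)
      (L h q : ℕ) (W : Ω → Cbx), 1 ≤ h → NEx c lam N k β d P l t C L h q W →
      ∀ (a b R : ℕ) (A : Ω → Cbx) (v : ℝ), a ≤ h → b ≤ R →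
      (∀ ω, 0 < P.w ω → LbOk c1 L a (A ω) (l ω) (t ω) ∧ (A ω).u2 = (1 / 2 : ℝ) ^ b ∧ (A ω).u1 = (1 / 2 : ℝ) ^ R) →
      val lam P l t C h W ≤ val lam P l t C a A + v →
      ∃ X : Law.GT (zla a l t C) (zla a l t C) → ℕ,
        (∀ x, 0 < (two P (zla a l t C)).w x → X x ≤ R - b ∧
          (Agr (K * (2 ^ X x * (1 / 2) ^ (R - b))) (A x.fst) (A x.snd) (bl a (l x.fst) (t x.fst)) ∨ X x = R - b)) ∧
        lam * (two P (zla a l t C)).ex (fun x => (X x : ℝ)) * Real.log 2 ≤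
          2 * v + 2 * ((β' + ε) * a - (β - d) * h) * Real.log 2 - 2 * N * (Dd P l t C h - Dd P l t C a) +
            2 * k' * (b + |(R : ℝ) - q|) * Real.log 2 + K := by
  have hc1 : 1 ≤ c1 := hc.trans hcc
  obtain ⟨c2, Ks, hc2, hKs, hS⟩ := subT_a c1 lam hc1 h0.le h1
  obtain ⟨Kl, hKl, hLab⟩ := lab_nat lam N k k' β β' h0 h1 hk hkk hN hF c (max c c2) hc (le_max_left _ _) ε hε
  have l2 : 0 < Real.log 2 := Real.log_pos (by norm_num)
  obtain ⟨θ, hθ0, hθN⟩ : ∃ θ : ℝ, 0 < θ ∧ θ * (7 + 2 * N) = lam / 4 := by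
    have hN7 : 0 < 7 + 2 * N := by linarith
    exact ⟨lam / (4 * (7 + 2 * N)), by positivity, by field_simp⟩
  refine ⟨1 + Ks + 2 * Kl + (7 + 2 * N) * |H868.Kth θ|, by have := abs_nonneg (H868.Kth θ); nlinarith, ?_⟩
  intro d Ω _ γ P l t C L h q W hh hne a b R A v hah hbR hA hv
  obtain ⟨X, p, J, M, g1, g2⟩ := hS Ω γ P l t C L a b R A hbR hA
  refine ⟨X, fun x hx => ⟨(g1 x hx).1, ?_⟩, ?_⟩
  · rcases (g1 x hx).2.2.2.1 with h2 | h2
    · left
      obtain ⟨σ, q1, q2, q3, q4⟩ := h2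
      have hle : Ks * (2 ^ X x * (1 / 2 : ℝ) ^ (R - b)) ≤
          (1 + Ks + 2 * Kl + (7 + 2 * N) * |H868.Kth θ|) * (2 ^ X x * (1 / 2 : ℝ) ^ (R - b)) := by
        refine mul_le_mul_of_nonneg_right ?_ (by positivity)
        have : 0 ≤ (7 + 2 * N) * |H868.Kth θ| := by positivity
        linarith
      exact ⟨σ, q1, fun k => (q2 k).trans hle, q3.trans hle, q4.trans hle⟩
    · right
      exact h2
  -- LAB for the two labels
  have kJ := hLab d Ω γ P l t C L h q W hh hne _ (two P (zla a l t C)) (fun x => x.fst) (pr_fst P _) X a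
    (fun n => (b, R - n)) J θ hah hθ0 (fun x hx => ⟨G480.LbOk.cls (le_max_right _ _) (g1 x hx).2.2.2.2.1, (g1 x hx).2.2.2.2.2.1,
      (g1 x hx).2.2.2.2.2.2.1⟩)
  have kM := hLab d Ω γ P l t C L h q W hh hne _ (two P (zla a l t C)) (fun x => x.fst) (pr_fst P _) p a
    (fun n => (b + n, R)) M θ hah hθ0 (fun x hx => ⟨G480.LbOk.cls (le_max_right _ _) (g1 x hx).2.2.2.2.2.2.2.1,
      (g1 x hx).2.2.2.2.2.2.2.2.1, (g1 x hx).2.2.2.2.2.2.2.2.2⟩)
  have g1X : ∀ x, 0 < (two P (zla a l t C)).w x → X x ≤ R := fun x hx => (g1 x hx).1.trans (Nat.sub_le _ _)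
  have g1p : ∀ x, 0 < (two P (zla a l t C)).w x → p x ≤ X x := fun x hx => (g1 x hx).2.2.1
  have x1 := hc_nat (two P (zla a l t C)) X (fun _ => ()) hθ0
  clear g1 hLab hS
  generalize two P (zla a l t C) = G at *
  generalize val lam G (fun x => l x.fst) (fun x => t x.fst) (fun x => C x.fst) a J = VJ at *
  generalize val lam G (fun x => l x.fst) (fun x => t x.fst) (fun x => C x.fst) a M = VM at *
  have hEX0 : 0 ≤ G.ex (fun x => (X x : ℝ)) := G.ex_nonneg fun x _ => Nat.cast_nonneg _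
  have hEp : G.ex (fun x => (p x : ℝ)) ≤ G.ex (fun x => (X x : ℝ)) := G.ex_mono fun x hx => by exact_mod_cast g1p x hx
  -- the penalties
  have pJ : G.ex (fun x => (((b : ℕ) : ℝ) + |((R - X x : ℕ) : ℝ) - q|) * Real.log 2) ≤
      (b + |(R : ℝ) - q| + G.ex (fun x => (X x : ℝ))) * Real.log 2 := by
    have : G.ex (fun x => (((b : ℕ) : ℝ) + |((R - X x : ℕ) : ℝ) - q|) * Real.log 2) ≤
        G.ex (fun x => (b + |(R : ℝ) - q|) * Real.log 2 + Real.log 2 * (X x : ℝ)) := by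
      refine G.ex_mono fun x hx => ?_
      rw [Nat.cast_sub (g1X x hx)]
      have i1 : |(R : ℝ) - (X x : ℝ) - q| ≤ |(R : ℝ) - q| + X x := by
        have i2 := abs_add_le ((R : ℝ) - q) (-(X x : ℝ))
        rw [abs_neg, abs_of_nonneg (Nat.cast_nonneg (X x) : (0 : ℝ) ≤ (X x : ℝ))] at i2
        refine le_trans (le_of_eq ?_) i2
        congr 1
        ring
      nlinarith
    rw [G.ex_add, G.ex_const, G.ex_const_mul] at this
    linarith
  have pM : G.ex (fun x => (((b + p x : ℕ) : ℝ) + |((R : ℕ) : ℝ) - q|) * Real.log 2) ≤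
      (b + |(R : ℝ) - q| + G.ex (fun x => (X x : ℝ))) * Real.log 2 := by
    have : G.ex (fun x => (((b + p x : ℕ) : ℝ) + |((R : ℕ) : ℝ) - q|) * Real.log 2) =
        G.ex (fun x => (b + |(R : ℝ) - q|) * Real.log 2 + Real.log 2 * (p x : ℝ)) := by
      refine G.ex_congr fun x _ => ?_
      push_cast
      ring
    rw [this, G.ex_add, G.ex_const, G.ex_const_mul]
    have := mul_le_mul_of_nonneg_left hEp l2.le
    linarith
  have hk' : 0 ≤ k' := hk.trans hkk
  simp only [] at kJ kM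
  generalize G.ex (fun x => (((b : ℕ) : ℝ) + |((R - X x : ℕ) : ℝ) - q|) * Real.log 2) = PJ at *
  generalize G.ex (fun x => (((b + p x : ℕ) : ℝ) + |((R : ℕ) : ℝ) - q|) * Real.log 2) = PM at *
  generalize G.ex (fun x => (X x : ℝ)) = EX at *
  generalize G.ex (fun x => (p x : ℝ)) = Ep at *
  generalize Stk.hc G X (fun _ => ()) = HX at *
  generalize val lam P l t C h W = VW at *
  generalize val lam P l t C a A = VA at *
  generalize Dd P l t C h - Dd P l t C a = DD at *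
  have qJ := mul_le_mul_of_nonneg_left pJ hk'
  have qM := mul_le_mul_of_nonneg_left pM hk'
  have hkE : k' * (EX * Real.log 2) ≤ lam / 8 * (EX * Real.log 2) := mul_le_mul_of_nonneg_right hk8 (by positivity)
  have hK1 := le_abs_self (H868.Kth θ)
  have hη : θ * (Real.log 2 * Ep) ≤ θ * (Real.log 2 * EX) := by gcongr
  have hη2 : (2 + N) * (θ * (Real.log 2 * Ep) + H868.Kth θ) ≤ (2 + N) * (θ * (Real.log 2 * EX) + |H868.Kth θ|) :=
    mul_le_mul_of_nonneg_left (by linarith) (by linarith)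
  have hη3 : (2 + N) * (θ * (Real.log 2 * EX) + H868.Kth θ) ≤ (2 + N) * (θ * (Real.log 2 * EX) + |H868.Kth θ|) :=
    mul_le_mul_of_nonneg_left (by linarith) (by linarith)
  have hηN : (7 + 2 * N) * (θ * (Real.log 2 * EX) + |H868.Kth θ|) =
      lam / 4 * (Real.log 2 * EX) + (7 + 2 * N) * |H868.Kth θ| := by
    rw [← hθN]
    ring
  have e1 : k' * ((b + |(R : ℝ) - q| + EX) * Real.log 2) = k' * (b + |(R : ℝ) - q|) * Real.log 2 + k' * (EX * Real.log 2) := by
    ring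
  rw [e1] at qJ qM
  have f1 : 3 / 2 * lam * Real.log 2 * EX ≤ 2 * v + 2 * ((β' + ε) * a - (β - d) * h) * Real.log 2 - 2 * N * DD +
      2 * (k' * (b + |(R : ℝ) - q|) * Real.log 2) + 2 * (lam / 8 * (EX * Real.log 2)) +
      (7 + 2 * N) * (θ * (Real.log 2 * EX) + |H868.Kth θ|) + (1 + Ks + 2 * Kl) := by
    linarith
  rw [hηN] at f1
  linarith

/-- **[SUBH]** : two copies of the label `W` of a near-extremal system, given `(l, t_h, C)` -/
theorem subH (lam N k k' β β' : ℝ) (h0 : 0 < lam) (h1 : lam ≤ 1) (hk : 0 ≤ k) (hkk : k ≤ k') (hk8 : k' ≤ lam / 8)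
    (hN : 0 ≤ N) (hF : FIXA lam N k' β') (c : ℝ) (hc : 1 ≤ c) (ε : ℝ) (hε : 0 < ε) :
    ∃ K : ℝ, 1 ≤ K ∧ ∀ (d : ℝ) (Ω : Type) [Fintype Ω] (γ : Type) (P : Law Ω) (l : Ω → Ry) (t : Ω → ℝ) (C : Ω → γ)
      (L h q : ℕ) (W : Ω → Cbx), 1 ≤ h → NEx c lam N k β d P l t C L h q W →
      ∃ X : Law.GT (zla h l t C) (zla h l t C) → ℕ,
        (∀ x, 0 < (two P (zla h l t C)).w x → X x ≤ q ∧
          (Agr (K * (2 ^ X x * (1 / 2) ^ q)) (W x.fst) (W x.snd) (bl h (l x.fst) (t x.fst)) ∨ X x = q)) ∧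
        lam * (two P (zla h l t C)).ex (fun x => (X x : ℝ)) ≤ 2 * (β' + ε - β + d) * h + K := by
  obtain ⟨K, hK1, hK⟩ := subA lam N k k' β β' h0 h1 hk hkk hk8 hN hF c c hc le_rfl ε hε
  have l2 : 0 < Real.log 2 := Real.log_pos (by norm_num)
  have l2' : Real.log 2 < 1 := by
    have := Real.log_two_lt_d9
    linarith
  have hKK : K ≤ K / Real.log 2 := by
    rw [le_div_iff₀ l2]
    nlinarith
  refine ⟨K / Real.log 2, hK1.trans hKK, ?_⟩
  intro d Ω _ γ P l t C L h q W hh hne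
  obtain ⟨X, g1, g2⟩ := hK d Ω γ P l t C L h q W hh hne h 0 q W 0 le_rfl (Nat.zero_le _)
    (fun ω hω => ⟨(hne.lb ω hω).1, by rw [pow_zero]; exact (hne.lb ω hω).2.1, (hne.lb ω hω).2.2⟩) (by rw [add_zero])
  refine ⟨X, fun x hx => ?_, ?_⟩
  · obtain ⟨h2, h3⟩ := g1 x hx
    rw [Nat.sub_zero] at h2 h3
    refine ⟨h2, ?_⟩
    rcases h3 with h3 | h3
    · left
      obtain ⟨σ, q1, q2, q3, q4⟩ := h3
      have hle : K * (2 ^ X x * (1 / 2 : ℝ) ^ q) ≤ K / Real.log 2 * (2 ^ X x * (1 / 2 : ℝ) ^ q) :=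
        mul_le_mul_of_nonneg_right hKK (by positivity)
      exact ⟨σ, q1, fun k => (q2 k).trans hle, q3.trans hle, q4.trans hle⟩
    · right
      exact h3
  · simp only [sub_self, abs_zero, Nat.cast_zero, add_zero, mul_zero, zero_mul, sub_zero, zero_add] at g2
    have e : lam * (two P (zla h l t C)).ex (fun x => (X x : ℝ)) * Real.log 2 ≤
        (2 * (β' + ε - β + d) * h + K / Real.log 2) * Real.log 2 := by
      have e2 : (2 * (β' + ε - β + d) * h + K / Real.log 2) * Real.log 2 =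
          2 * ((β' + ε) * h - (β - d) * h) * Real.log 2 + K := by
        field_simp
        ring
      rw [e2]
      exact g2
    exact le_of_mul_le_mul_right e l2

end Vale.Agent.P106.U.SubA339
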