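import Vale.Agent.P106.U.H339.SubW

/-!
# P106 / U / H339 : [SUBW], event form (for helper425's [SW], note 19367)

* `rep_event` : if two copies given `Z` are related outside probability `ρ`, then outside probability `ρ` every `ω` is related to
  the representative of its class.
* `subE` : near-extremal system, `a + w = h`: an event `E` of probability `≥ 1 - ρ1` such that all `ω, ω'` of `E` with the same
  `(l, t_a, C)` have functionals of `W` which agree on the block of level `a` up to `2 D 2^-r`.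
-/

set_option autoImplicit false

namespace Vale.Agent.P106.U.SubW339

open Finset Vale.Agent.P127 Vale.Agent.P127.Stk Vale.Agent.P127.U Vale.Agent.P106.W Vale.Agent.P106.K
open Vale.Agent.P106.U Vale.Agent.P106.U.H416 Vale.Agent.P106.U.H428 Vale.Agent.P106.U.H61
open Vale.Agent.P106.U.H118 (two two_supp)
open Vale.Agent.P106.U.SubA339 (zla bla_congr)

open Classical in
/-- representatives of the classes -/
theorem rep_event {Ω : Type} [Fintype Ω] {ζ : Type} (P : Law Ω) (Z : Ω → ζ) (Rel : Ω → Ω → Prop) {ρ : ℝ}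
    (h : (two P Z).ex (fun x => if Rel x.fst x.snd then 0 else 1) ≤ ρ) :
    ∃ b : ζ → Ω, P.ex (fun ω => if 0 < P.w (b (Z ω)) ∧ Z (b (Z ω)) = Z ω ∧ Rel ω (b (Z ω)) then 0 else 1) ≤ ρ := by
  have hmin : ∀ z, ∃ c : Ω, ∀ b, 0 < P.w b → Z b = z → 0 < P.w c ∧ Z c = z ∧
      ∑ a with Z a = z, P.w a * (if Rel a c then 0 else 1 : ℝ) ≤ ∑ a with Z a = z, P.w a * (if Rel a b then 0 else 1 : ℝ) := by
    intro z
    by_cases h : (univ.filter fun b => 0 < P.w b ∧ Z b = z).Nonempty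
    · obtain ⟨b, hb, hb'⟩ := Finset.exists_min_image _
        (fun b => ∑ a with Z a = z, P.w a * (if Rel a b then 0 else 1 : ℝ)) h
      have hb2 : 0 < P.w b ∧ Z b = z := by simpa using hb
      refine ⟨b, fun b' h1 h2 => ⟨hb2.1, hb2.2, hb' b' ?_⟩⟩
      simp [h1, h2]
    · obtain ⟨ω, -⟩ : ∃ ω, 0 < P.w ω := by
        by_contra hcon
        push Not at hcon
        have h3 : ∑ ω, P.w ω ≤ 0 := Finset.sum_nonpos fun ω _ => hcon ω
        rw [P.sum_one] at h3
        linarith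
      refine ⟨ω, fun b h1 h2 => absurd ⟨b, ?_⟩ h⟩
      simp [h1, h2]
  choose S hSm using hmin
  refine ⟨S, le_trans ?_ h⟩
  have e1 : (two P Z).ex (fun x => if Rel x.fst x.snd then 0 else 1) =
      ∑ a, ∑ b with Z b = Z a, P.w a * P.w b / P.pr Z (Z a) * (if Rel a b then 0 else 1 : ℝ) := by
    rw [← Law.GT_sum Z Z (fun a b => P.w a * P.w b / P.pr Z (Z a) * (if Rel a b then 0 else 1 : ℝ))]
    rfl
  rw [e1]
  unfold Law.ex
  rw [← Finset.sum_fiberwise_of_maps_to (g := Z) (t := img Z) (by simp),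
    ← Finset.sum_fiberwise_of_maps_to (s := univ) (g := Z) (t := img Z) (by simp)]
  refine Finset.sum_le_sum fun z _ => ?_
  have e3 : ∑ a with Z a = z, ∑ b with Z b = Z a, P.w a * P.w b / P.pr Z (Z a) * (if Rel a b then 0 else 1 : ℝ) =
      ∑ b with Z b = z, P.w b / P.pr Z z * ∑ a with Z a = z, P.w a * (if Rel a b then 0 else 1 : ℝ) := by
    have : ∀ a ∈ univ.filter (fun a => Z a = z), ∑ b with Z b = Z a, P.w a * P.w b / P.pr Z (Z a) *
        (if Rel a b then 0 else 1 : ℝ) = ∑ b with Z b = z, P.w b / P.pr Z z * (P.w a * (if Rel a b then 0 else 1 : ℝ)) := by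
      intro a ha
      have h1 : Z a = z := by simpa using ha
      rw [h1]
      refine Finset.sum_congr rfl fun b _ => ?_
      ring
    rw [Finset.sum_congr rfl this, Finset.sum_comm]
    refine Finset.sum_congr rfl fun b _ => ?_
    rw [Finset.mul_sum]
  rw [e3]
  have hw : ∑ b with Z b = z, P.w b = P.pr Z z := rfl
  rcases (P.pr_nonneg Z z).eq_or_lt with h0 | h0
  · have h1 : ∑ a with Z a = z, P.w a * (if 0 < P.w (S (Z a)) ∧ Z (S (Z a)) = Z a ∧ Rel a (S (Z a)) then 0 else 1 : ℝ) = 0 := by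
      refine Finset.sum_eq_zero fun a ha => ?_
      have h2 : Z a = z := by simpa using ha
      have h3 := P.w_le_pr Z a
      rw [h2, ← h0] at h3
      rw [le_antisymm h3 (P.nn a), zero_mul]
    rw [h1]
    refine Finset.sum_nonneg fun b _ => mul_nonneg (div_nonneg (P.nn b) (P.pr_nonneg Z z)) (Finset.sum_nonneg fun a _ =>
      mul_nonneg (P.nn a) ?_)
    split_ifs <;> norm_num
  · -- a point of positive weight in the class
    obtain ⟨b0, hb0, hb0'⟩ : ∃ b, 0 < P.w b ∧ Z b = z := by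
      by_contra hcon
      push Not at hcon
      have h3 : ∑ b with Z b = z, P.w b ≤ 0 := Finset.sum_nonpos fun b hb => by
        by_contra hc
        push Not at hc
        exact hcon b hc (by simpa using hb)
      rw [hw] at h3
      linarith
    obtain ⟨s1, s2, -⟩ := hSm z b0 hb0 hb0'
    have e2 : ∑ a with Z a = z, P.w a * (if 0 < P.w (S (Z a)) ∧ Z (S (Z a)) = Z a ∧ Rel a (S (Z a)) then 0 else 1 : ℝ) =
        ∑ a with Z a = z, P.w a * (if Rel a (S z) then 0 else 1 : ℝ) := by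
      refine Finset.sum_congr rfl fun a ha => ?_
      have : Z a = z := by simpa using ha
      rw [this]
      simp only [s1, s2, true_and]
    rw [e2]
    set m := ∑ a with Z a = z, P.w a * (if Rel a (S z) then 0 else 1 : ℝ) with hm
    have h1 : m = ∑ b with Z b = z, P.w b / P.pr Z z * m := by
      rw [← Finset.sum_mul, ← Finset.sum_div, hw, div_self h0.ne', one_mul]
    rw [h1]
    refine Finset.sum_le_sum fun b hb => ?_
    have hb' : Z b = z := by simpa using hb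
    rcases (P.nn b).eq_or_lt with h2 | h2
    · rw [← h2]
      simp
    · exact mul_le_mul_of_nonneg_left (hSm z b h2 hb').2.2 (div_nonneg (P.nn b) h0.le)

/-- transitivity of the agreement -/
theorem ag_trans {δ δ' : ℝ} {F F' F'' : Cbx} {m : Ry} {σ σ' : ℝ} (hσ : σ = 1 ∨ σ = -1) (hσ' : σ' = 1 ∨ σ' = -1)
    (h : Ag δ F F' m σ) (h' : Ag δ' F'' F' m σ') : Ag (δ + δ') F F'' m (σ * σ') := by
  have hs : σ' * σ' = 1 := by rcases hσ' with h | h <;> rw [h] <;> norm_num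
  obtain ⟨a1, a2, a3⟩ := h
  obtain ⟨b1, b2, b3⟩ := h'
  have hσa : ∀ x : ℝ, |σ' * x| = |x| := fun x => by
    rcases hσ' with h | h <;> rw [h] <;> simp
  have hσ1 : |σ| = 1 := by rcases hσ with h | h <;> rw [h] <;> simp
  have key : ∀ x y z : ℝ, |x - σ * y| ≤ δ → |z - σ' * y| ≤ δ' → |x - σ * σ' * z| ≤ δ + δ' := by
    intro x y z h1 h2
    have e : x - σ * σ' * z = (x - σ * y) - σ * (σ' * (z - σ' * y)) := by
      have : σ * (σ' * (z - σ' * y)) = σ * σ' * z - σ * (σ' * σ') * y := by ring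
      rw [this, hs]
      ring
    rw [e]
    refine (abs_sub _ _).trans ?_
    rw [abs_mul, hσ1, one_mul, hσa]
    linarith
  exact ⟨fun k => key _ _ _ (a1 k) (b1 k), key _ _ _ a2 b2, key _ _ _ a3 b3⟩

/-- two copies related to the same copy -/
theorem RlW.join {D : ℝ} {Ω : Type} {l : Ω → Ry} {t : Ω → ℝ} {a w r : ℕ} {W : Ω → Cbx} {ω ω' ω'' : Ω}
    (h : RlW D l t a w r W ω ω'') (h' : RlW D l t a w r W ω' ω'') (hl : l ω = l ω') (ht : fl1 a (t ω) = fl1 a (t ω')) :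
    RlW (2 * D) l t a w r W ω ω' := by
  obtain ⟨σ, hσ, hA⟩ := h
  obtain ⟨σ', hσ', hA'⟩ := h'
  have ebl : bl a (l ω) (t ω) = bl a (l ω') (t ω') := bla_congr hl ht
  rw [← ebl] at hA'
  refine ⟨σ * σ', ?_, ?_⟩
  · rcases hσ with h | h <;> rcases hσ' with h' | h' <;> rw [h, h'] <;> norm_num
  · have := ag_trans hσ hσ' hA hA'
    have e : 2 * D * (1 / 2 : ℝ) ^ r = D * (1 / 2 : ℝ) ^ r + D * (1 / 2 : ℝ) ^ r := by ring
    rw [e]
    exact this

/-- **[SUBW]**, event form -/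
theorem subE {lam N : ℝ} (h0 : 0 < lam) (h1 : lam ≤ 1) (hN : 0 ≤ N) {k β' : ℝ} (hk : 0 < k) (hk1 : k ≤ lam / 16)
    (hβ' : 0 ≤ β') (hF : FIXA lam N (4 * k) β') {c : ℝ} (hc : 1 ≤ c) {ρ1 : ℝ} (hρ1 : 0 < ρ1) {K1 : ℝ}
    (hK1 : 1 + 6 / (lam * ρ1) ≤ K1) {ε : ℝ} (hε : 0 < ε) :
    ∃ (D K : ℝ) (h0' : ℕ), 0 ≤ D ∧ 0 ≤ K ∧ ∀ (β d d' : ℝ) (Ω : Type) [Fintype Ω] (γ : Type) (P : Law Ω) (l : Ω → Ry)
      (t : Ω → ℝ) (C : Ω → γ) (L h q : ℕ) (W : Ω → Cbx), NEx c lam N k β d P l t C L h q W → ∀ a w : ℕ, a + w = h →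
      h0' ≤ w → d' ≤ β → (d * h + (β' + ε - β) * a) * Real.log 2 + K ≤ d' * w * Real.log 2 →
      ∀ r : ℕ, (r : ℝ) + K1 * w ≤ q →
      ∃ E : Ω → Prop, 1 - ρ1 ≤ prE P E ∧ ∀ ω ω', E ω → E ω' → l ω = l ω' → fl1 a (t ω) = fl1 a (t ω') → C ω = C ω' →
        RlW D l t a w r W ω ω' := by
  classical
  obtain ⟨D, K, n0, hD, hK0, H⟩ := subW h0 h1 hN hk hk1 hβ' hF hc hρ1 hK1 hε
  refine ⟨2 * D, K, n0, by positivity, hK0, ?_⟩
  intro β d d' Ω _ γ P l t C L h q W hE a w haw hw hd' hbud r hr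
  have key := H β d d' Ω γ P l t C L h q W hE a w haw hw hd' hbud r hr
  obtain ⟨b, hb⟩ := rep_event P (zla a l t C) (RlW D l t a w r W) key
  obtain ⟨A, hA⟩ : ∃ A : Ω → Prop, A = fun ω => 0 < P.w (b (zla a l t C ω)) ∧ zla a l t C (b (zla a l t C ω)) = zla a l t C ω ∧
    RlW D l t a w r W ω (b (zla a l t C ω)) := ⟨_, rfl⟩
  have hb' : P.ex (fun ω => if A ω then (0 : ℝ) else 1) ≤ ρ1 := by
    refine le_trans (le_of_eq ?_) hb
    refine P.ex_congr fun ω _ => ?_
    have hω : A ω ↔ (0 < P.w (b (zla a l t C ω)) ∧ zla a l t C (b (zla a l t C ω)) = zla a l t C ω ∧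
      RlW D l t a w r W ω (b (zla a l t C ω))) := by rw [hA]
    by_cases h3 : A ω
    · rw [if_pos h3, if_pos (hω.1 h3)]
    · rw [if_neg h3, if_neg (fun h4 => h3 (hω.2 h4))]
  refine ⟨A, ?_, ?_⟩
  · rw [H457.prE_ex]
    have e : P.ex (fun _ => (1 : ℝ)) = 1 := by rw [P.ex_const]
    have h2 : P.ex (fun ω => if A ω then (1 : ℝ) else 0) + P.ex (fun ω => if A ω then (0 : ℝ) else 1) = 1 := by
      rw [← P.ex_add]
      refine Eq.trans ?_ e
      refine P.ex_congr fun ω _ => ?_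
      split_ifs <;> norm_num
    linarith
  · rw [hA]
    rintro ω ω' ⟨-, -, r1⟩ ⟨-, -, r2⟩ el et eC
    have hz : zla a l t C ω = zla a l t C ω' := by
      simp only [zla, Prod.mk.injEq]
      exact ⟨el, et, eC⟩
    rw [← hz] at r2
    exact RlW.join r1 r2 el et

end Vale.Agent.P106.U.SubW339
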