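import Vale.Agent.P106.U.H465.SubT

/-!
# P106 / U / H339 : THEOREM SUB and the K-BOUND (`subT_of : PJoin → PMeet → PSubT`, `pkb : PKb`)
-/

set_option autoImplicit false

namespace Vale.Agent.P106.U.H339

open Finset Vale.Agent.P127 Vale.Agent.P127.Stk Vale.Agent.P127.U Vale.Agent.P106.W Vale.Agent.P106.K Vale.Agent.P106.U
open Vale.Agent.P106.U.H118 (two two_supp two_hc two_hc')

/-! ### abstract part -/

section abs

variable {Ω : Type} [Fintype Ω] {Λ τ β δ : Type*}

/-- independence of the copies -/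
theorem two_ind (P : Law Ω) (Z : Ω → Λ) (W : Ω → β) :
    hc (two P Z) (fun x => W x.fst) (fun x => (W x.snd, Z x.fst)) = hc P W Z := by
  have h1 := Law.glue_indep (P := P) (Q := P) (X₁ := Z) (X₂ := Z) (fun _ => rfl) W W
  have h2 : (two P Z).H (fun x => (W x.snd, Z x.fst)) = P.H (fun ω => (W ω, Z ω)) := by
    have e : (fun x : Law.GT Z Z => (W x.snd, Z x.fst)) = fun x => (W x.snd, Z x.snd) := by
      funext x
      rw [x.eq]
    rw [e]
    exact Law.glue_H' (fun _ => rfl) (fun ω => (W ω, Z ω))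
  unfold hc
  rw [h2]
  have h3 : (two P Z).H (fun x => (W x.fst, (W x.snd, Z x.fst))) =
      P.H (fun a => (W a, Z a)) + P.H (fun b => (W b, Z b)) - P.H Z := h1
  rw [h3]
  ring

/-- **join** -/
theorem join_ent (P : Law Ω) (l : Ω → Λ) (T : Ω → τ) (W : Ω → β)
    (X : Law.GT (fun ω => (l ω, T ω)) (fun ω => (l ω, T ω)) → ℕ)
    (J : Law.GT (fun ω => (l ω, T ω)) (fun ω => (l ω, T ω)) → δ) (N : ℕ)
    (hJ : Fn (two P fun ω => (l ω, T ω)) J (fun x => (X x, W x.fst)))
    (hN : ∀ x, 0 < (two P fun ω => (l ω, T ω)).w x → ∃ F : Finset δ, F.card ≤ N ∧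
      ∀ x', 0 < (two P fun ω => (l ω, T ω)).w x' → W x'.snd = W x.snd → X x' = X x → J x' ∈ F) :
    2 * hc P l (fun ω => (W ω, T ω)) -
        hc (two P fun ω => (l ω, T ω)) (fun x => l x.fst) (fun x => ((W x.fst, W x.snd), T x.fst)) -
        2 * hc (two P fun ω => (l ω, T ω)) X (fun _ => ()) - Real.log N ≤
      hc (two P fun ω => (l ω, T ω)) (fun x => l x.fst) (fun x => (J x, T x.fst)) := by
  set G := two P fun ω => (l ω, T ω) with hG
  have a := hc_mono_right G (fun x => l x.fst) (Y := fun x => (J x, T x.fst)) (Y' := fun x => (J x, (X x, T x.fst)))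
    (by
      intro x y _ _ e
      simp only [Prod.mk.injEq] at e ⊢
      exact ⟨e.1, e.2.2⟩)
  have b : mi G (fun x => l x.fst) (fun x => W x.fst) (fun x => (J x, (X x, T x.fst))) =
      hc G (fun x => l x.fst) (fun x => (J x, (X x, T x.fst))) -
      hc G (fun x => l x.fst) (fun x => (W x.fst, (J x, (X x, T x.fst)))) := rfl
  have c : hc G (fun x => l x.fst) (fun x => (W x.fst, (J x, (X x, T x.fst)))) =
      hc G (fun x => l x.fst) (fun x => (X x, (W x.fst, T x.fst))) := by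
    refine hc_congr G (fun x y _ _ e => congrArg Prod.fst e) (fun x y _ _ e => congrArg Prod.fst e) ?_ ?_
    · intro x y hx hy e
      simp only [Prod.mk.injEq] at e ⊢
      exact ⟨e.2.1, hJ x y hx hy (Prod.ext e.1 e.2.1), e.1, e.2.2⟩
    · intro x y hx hy e
      simp only [Prod.mk.injEq] at e ⊢
      exact ⟨e.2.2.1, e.1, e.2.2.2⟩
  have d := hc_le_add' G (fun x => l x.fst) X (fun x => (W x.fst, T x.fst))
  have d' := hc_mono_right G X (Y := fun _ => ()) (Y' := fun x => (W x.fst, T x.fst)) (fun _ _ _ _ _ => rfl)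
  have e : mi G (fun x => W x.fst) (fun x => l x.fst) (fun x => (J x, (X x, T x.fst))) =
      hc G (fun x => W x.fst) (fun x => (J x, (X x, T x.fst))) -
      hc G (fun x => W x.fst) (fun x => (l x.fst, (J x, (X x, T x.fst)))) := rfl
  have e0 := mi_symm G (fun x => l x.fst) (fun x => W x.fst) (fun x => (J x, (X x, T x.fst)))
  have e' := hc_mono_right G (fun x => W x.fst) (Y := fun x => (l x.fst, T x.fst))
    (Y' := fun x => (l x.fst, (J x, (X x, T x.fst)))) (by
      intro x y _ _ e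
      simp only [Prod.mk.injEq] at e ⊢
      exact ⟨e.1, e.2.2.2⟩)
  have f := hc_le_add' G (fun x => W x.fst) X (fun x => (W x.snd, T x.fst))
  have f' := hc_mono_right G X (Y := fun _ => ()) (Y' := fun x => (W x.snd, T x.fst)) (fun _ _ _ _ _ => rfl)
  have g := hc_le_add G (fun x => W x.fst) J (fun x => (X x, (W x.snd, T x.fst)))
  have g' : hc G J (fun x => (X x, (W x.snd, T x.fst))) ≤ Real.log N := by
    refine hc_le_log G _ _ N fun x hx => ?_
    obtain ⟨F, hF, hF'⟩ := hN x hx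
    refine ⟨F, hF, fun x' hx' e => ?_⟩
    simp only [Prod.mk.injEq] at e
    exact hF' x' hx' e.2.1 e.1
  have g'' := hc_mono_right G (fun x => W x.fst) (Y := fun x => (J x, (X x, T x.fst)))
    (Y' := fun x => (J x, (X x, (W x.snd, T x.fst)))) (by
      intro x y _ _ e
      simp only [Prod.mk.injEq] at e ⊢
      exact ⟨e.1, e.2.1, e.2.2.2⟩)
  have h : hc G (fun x => W x.fst) (fun x => (l x.fst, T x.fst)) = hc P W (fun ω => (l ω, T ω)) :=
    two_hc P _ W (fun ω => (l ω, T ω))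
  have h' : hc G (fun x => W x.fst) (fun x => (W x.snd, (l x.fst, T x.fst))) = hc P W (fun ω => (l ω, T ω)) :=
    two_ind P (fun ω => (l ω, T ω)) W
  have h'' : hc G (fun x => W x.fst) (fun x => (l x.fst, (W x.snd, T x.fst))) =
      hc G (fun x => W x.fst) (fun x => (W x.snd, (l x.fst, T x.fst))) := by
    refine hc_congr G (fun x y _ _ e => congrArg Prod.fst e) (fun x y _ _ e => congrArg Prod.fst e) ?_ ?_
    · intro x y hx hy e
      simp only [Prod.mk.injEq] at e ⊢
      exact ⟨e.2.1, e.1, e.2.2⟩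
    · intro x y hx hy e
      simp only [Prod.mk.injEq] at e ⊢
      exact ⟨e.2.1, e.1, e.2.2⟩
  have i0 := mi_symm G (fun x => W x.fst) (fun x => l x.fst) (fun x => (W x.snd, T x.fst))
  have i1 : mi G (fun x => W x.fst) (fun x => l x.fst) (fun x => (W x.snd, T x.fst)) =
      hc G (fun x => W x.fst) (fun x => (W x.snd, T x.fst)) -
      hc G (fun x => W x.fst) (fun x => (l x.fst, (W x.snd, T x.fst))) := rfl
  have i2 : mi G (fun x => l x.fst) (fun x => W x.fst) (fun x => (W x.snd, T x.fst)) =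
      hc G (fun x => l x.fst) (fun x => (W x.snd, T x.fst)) -
      hc G (fun x => l x.fst) (fun x => (W x.fst, (W x.snd, T x.fst))) := rfl
  have i3 : hc G (fun x => l x.fst) (fun x => (W x.fst, (W x.snd, T x.fst))) =
      hc G (fun x => l x.fst) (fun x => ((W x.fst, W x.snd), T x.fst)) := by
    refine hc_congr G (fun x y _ _ e => congrArg Prod.fst e) (fun x y _ _ e => congrArg Prod.fst e) ?_ ?_
    · intro x y hx hy e
      simp only [Prod.mk.injEq] at e ⊢
      exact ⟨e.1.1, e.1.2, e.2⟩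
    · intro x y hx hy e
      simp only [Prod.mk.injEq] at e ⊢
      exact ⟨⟨e.1, e.2.1⟩, e.2.2⟩
  have j1 : hc G (fun x => l x.fst) (fun x => (W x.fst, T x.fst)) = hc P l (fun ω => (W ω, T ω)) :=
    two_hc P _ l (fun ω => (W ω, T ω))
  have j2 : hc G (fun x => l x.fst) (fun x => (W x.snd, T x.fst)) = hc P l (fun ω => (W ω, T ω)) := by
    have e1 : (fun x : Law.GT (fun ω => (l ω, T ω)) (fun ω => (l ω, T ω)) => l x.fst) = fun x => l x.snd := by
      funext x
      exact congrArg Prod.fst x.eq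
    have e2 : (fun x : Law.GT (fun ω => (l ω, T ω)) (fun ω => (l ω, T ω)) => (W x.snd, T x.fst)) =
        fun x => (W x.snd, T x.snd) := by
      funext x
      have e3 : T x.fst = T x.snd := congrArg Prod.snd x.eq
      rw [e3]
    rw [e1, e2]
    exact two_hc' P _ l (fun ω => (W ω, T ω))
  linarith

/-- **meet** -/
theorem meet_ent {Ω' : Type} [Fintype Ω'] (G : Law Ω') (l : Ω' → Λ) (T : Ω' → τ) (V : Ω' → β) (M : Ω' → δ)
    (i : Ω' → ℕ) (n : β → ℕ) (hM : Fn G M (fun x => (V x, i x))) (hi : ∀ x, 0 < G.w x → i x < n (V x)) :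
    hc G l (fun x => (V x, T x)) - G.ex (fun x => Real.log (n (V x))) ≤ hc G l (fun x => (M x, T x)) := by
  classical
  have a := hc_mono_right G l (Y := fun x => (M x, T x)) (Y' := fun x => (i x, (V x, T x))) (by
      intro x y hx hy e
      simp only [Prod.mk.injEq] at e ⊢
      exact ⟨hM x y hx hy (Prod.ext e.2.1 e.1), e.2.2⟩)
  have b := hc_le_add' G l i (fun x => (V x, T x))
  have c : hc G i (fun x => (V x, T x)) ≤ G.ex (fun x => Real.log (n (V x))) := by
    have h := G.gibbs_cond i (fun x => (V x, T x)) (fun k y => if k < n y.1 then 1 / (n y.1 : ℝ) else 0)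
      (fun k y => by split_ifs <;> positivity) ?_ (fun x hx => by
        have h1 := hi x hx
        rw [if_pos h1]
        have : 0 < n (V x) := by omega
        positivity)
    · refine h.trans (le_of_eq ?_)
      refine G.ex_congr fun x hx => ?_
      simp only
      rw [if_pos (hi x hx), one_div, Real.log_inv, neg_neg]
    · intro y F
      rw [← Finset.sum_filter, Finset.sum_const, nsmul_eq_mul, mul_one_div]
      refine div_le_one_of_le₀ ?_ (Nat.cast_nonneg _)
      have : (F.filter (fun k => k < n y.1)).card ≤ (Finset.range (n y.1)).card :=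
        Finset.card_le_card fun k hk => Finset.mem_range.2 (Finset.mem_filter.1 hk).2
      rw [Finset.card_range] at this
      exact_mod_cast this
  linarith

end abs

/-! ### geometry -/

theorem Bin_mono {c c' : ℝ} (h : c ≤ c') {B : Cbx} {l : Ry} (hB : Bin c B 0 l) (h1 : 0 ≤ B.u1) (h2 : 0 ≤ B.u2) :
    Bin c' B 0 l := by
  obtain ⟨a1, a2, a3, a4, a5⟩ := hB
  refine ⟨fun k => (a1 k).trans (mul_le_mul_of_nonneg_right h h2), fun k => (a2 k).trans (mul_le_mul_of_nonneg_right h h2),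
    a3.trans (mul_le_mul_of_nonneg_right h (le_max_of_le_right le_rfl)), a4.trans (mul_le_mul_of_nonneg_right h h1),
    a5.trans (mul_le_mul_of_nonneg_right h h1)⟩

/-- passage from one common ray to another -/
theorem Agr_pass {c δ : ℝ} {B B' : Cbx} {l0 l : Ry} (hu0 : 0 ≤ B.u2) (hc : 0 ≤ c)
    (h0 : Bin c B 0 l0) (h1 : Bin c B 0 l) (h : Agr δ B B' l0) :
    Agr ((1 + 6 * c) * δ) B B' l := by
  obtain ⟨σ, hσ, a1, a2, a3⟩ := h
  have hδ : 0 ≤ δ := (mul_nonneg (abs_nonneg _) hu0).trans a2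
  have hδ' : δ ≤ (1 + 6 * c) * δ := by nlinarith
  refine ⟨σ, hσ, fun k => ?_, a2.trans hδ', a3.trans hδ'⟩
  have e : nrm B' l k - σ * nrm B l k = (nrm B' l0 k - σ * nrm B l0 k) + (B'.κ - σ * B.κ) * (l.s k - l0.s k) -
      2 * ((B'.α - σ * B.α) * (l.y k - l0.y k)) := by
    simp only [nrm]
    ring
  have s1 : |l.s k - l0.s k| ≤ 2 * c * B.u2 := by
    have b1 := abs_le.1 (h0.2.1 k)
    have b2 := abs_le.1 (h1.2.1 k)
    rw [abs_le]
    constructor <;> linarith [b1.1, b1.2, b2.1, b2.2]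
  have s2 : |l.y k - l0.y k| ≤ 2 * c * B.u2 := by
    have b1 := abs_le.1 (h0.1 k)
    have b2 := abs_le.1 (h1.1 k)
    rw [abs_le]
    constructor <;> linarith [b1.1, b1.2, b2.1, b2.2]
  have t1 : |(B'.κ - σ * B.κ) * (l.s k - l0.s k)| ≤ 2 * c * δ := by
    rw [abs_mul]
    calc |B'.κ - σ * B.κ| * |l.s k - l0.s k| ≤ |B'.κ - σ * B.κ| * (2 * c * B.u2) :=
          mul_le_mul_of_nonneg_left s1 (abs_nonneg _)
      _ = 2 * c * (|B'.κ - σ * B.κ| * B.u2) := by ring
      _ ≤ 2 * c * δ := mul_le_mul_of_nonneg_left a2 (by positivity)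
  have t2 : |(B'.α - σ * B.α) * (l.y k - l0.y k)| ≤ 2 * c * δ := by
    rw [abs_mul]
    calc |B'.α - σ * B.α| * |l.y k - l0.y k| ≤ |B'.α - σ * B.α| * (2 * c * B.u2) :=
          mul_le_mul_of_nonneg_left s2 (abs_nonneg _)
      _ = 2 * c * (|B'.α - σ * B.α| * B.u2) := by ring
      _ ≤ 2 * c * δ := mul_le_mul_of_nonneg_left a3 (by positivity)
  rw [e]
  have b0 := abs_le.1 (a1 k)
  have b1 := abs_le.1 t1
  have b2 := abs_le.1 t2
  rw [abs_le]
  constructor <;> nlinarith [b0.1, b0.2, b1.1, b1.2, b2.1, b2.2]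

/-- the level `0` ray depends on the ray and on the integer part of the time -/
theorem bl0_congr {l l' : Ry} {t t' : ℝ} (h : l = l') (ht : fl1 0 t = fl1 0 t') : bl 0 l t = bl 0 l' t' := by
  subst h
  simp only [bl, Vale.Agent.P127.U.qa, ht]

theorem half_inj {m n : ℕ} (h : (1 / 2 : ℝ) ^ m = (1 / 2 : ℝ) ^ n) : m = n :=
  pow_right_injective₀ (by norm_num) (by norm_num) h

/-- **THEOREM SUB** from JOIN and MEET -/
theorem subT_of (hJ : PJoin) (hM : PMeet) : PSubT := by
  classical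
  intro c lam hc1' hl0 hl1
  obtain ⟨c1, N, hc1, HJ⟩ := hJ c hc1'
  obtain ⟨c2, C2, hc2, HM⟩ := hM c hc1'
  refine ⟨max c1 c2, (1 + 6 * c) + C2 + |Real.log N| + |Real.log C2| + C2 * Real.log 2, le_max_of_le_left hc1, by positivity, ?_⟩
  intro Ω _ γ P l t C L b R W hbR hsy hW
  obtain ⟨Jf, HJf⟩ := HJ b R hbR
  set Z := zl l t C with hZ
  set G := two P Z with hG
  -- common support
  have key : ∀ x : Law.GT Z Z, 0 < G.w x → 0 < P.w x.fst ∧ 0 < P.w x.snd := fun x hx => two_supp hx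
  have hbl : ∀ x : Law.GT Z Z, bl 0 (l x.snd) (t x.snd) = bl 0 (l x.fst) (t x.fst) := fun x =>
    bl0_congr (congrArg Prod.fst x.eq).symm (congrArg (fun z => z.2.1) x.eq).symm
  have hShp : ∀ ω, 0 < P.w ω → Shp c b R (W ω) := fun ω hω =>
    ⟨(hW ω hω).2.1, (hW ω hω).2.2, (hW ω hω).1.α2, (hW ω hω).1.κ2⟩
  have hBin1 : ∀ x : Law.GT Z Z, 0 < G.w x → Bin c (W x.fst) 0 (bl 0 (l x.fst) (t x.fst)) := fun x hx =>
    (hW _ (key x hx).1).1.inn
  have hBin2 : ∀ x : Law.GT Z Z, 0 < G.w x → Bin c (W x.snd) 0 (bl 0 (l x.fst) (t x.fst)) := fun x hx => by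
    rw [← hbl x]
    exact (hW _ (key x hx).2).1.inn
  -- data of the pair
  have hpair : ∀ B B' : Cbx, ∃ (Xv p n : ℕ) (Mv : ℕ → Cbx), (∃ x : Law.GT Z Z, 0 < G.w x ∧ W x.fst = B ∧ W x.snd = B') →
      Xv ≤ R - b ∧ (∃ l0, Bin c B 0 l0 ∧ Bin c B' 0 l0 ∧ (Agr (2 ^ Xv * (1 / 2) ^ (R - b)) B B' l0 ∨ Xv = R - b)) ∧
      b + p ≤ R ∧ Xv ≤ 2 * p + C2 ∧ p ≤ Xv ∧ (n : ℝ) * 2 ^ Xv ≤ C2 * 2 ^ (3 * p) ∧
      (∀ i < n, Shp c2 (b + p) R (Mv i)) ∧ ∀ r, Bin c B 0 r → Bin c B' 0 r → ∃ i < n, Bin c2 (Mv i) 0 r := by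
    intro B B'
    by_cases hcm : ∃ x : Law.GT Z Z, 0 < G.w x ∧ W x.fst = B ∧ W x.snd = B'
    · obtain ⟨x, hx, e1, e2⟩ := hcm
      have s1 : Shp c b R B := e1 ▸ hShp _ (key x hx).1
      have s2 : Shp c b R B' := e2 ▸ hShp _ (key x hx).2
      have i1 : Bin c B 0 (bl 0 (l x.fst) (t x.fst)) := e1 ▸ hBin1 x hx
      have i2 : Bin c B' 0 (bl 0 (l x.fst) (t x.fst)) := e2 ▸ hBin2 x hx
      have hex : ∃ j, Agr (2 ^ j * (1 / 2) ^ (R - b)) B B' (bl 0 (l x.fst) (t x.fst)) ∨ j = R - b := ⟨R - b, Or.inr rfl⟩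
      have m1 := Nat.find_spec hex
      have m2 : Nat.find hex ≤ R - b := Nat.find_min' hex (Or.inr rfl)
      have m3 : Nat.find hex = 0 ∨
          ¬ Agr (2 ^ (Nat.find hex - 1) * (1 / 2) ^ (R - b)) B B' (bl 0 (l x.fst) (t x.fst)) := by
        rcases Nat.eq_zero_or_pos (Nat.find hex) with h | h
        · exact Or.inl h
        · have := Nat.find_min hex (m := Nat.find hex - 1) (by omega)
          push Not at this
          exact Or.inr this.1
      obtain ⟨p, n, q1, q2, q3, q4, M, q5, q6⟩ := HM b R (Nat.find hex) B B' _ hbR m2 s1 s2 i1 i2 m1 m3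
      refine ⟨Nat.find hex, p, n, fun i => if h : i < n then M ⟨i, h⟩ else B, fun _ => ⟨m2, ⟨_, i1, i2, m1⟩, q1, q2, q3, q4, ?_, ?_⟩⟩
      · intro i hi
        simp only [dif_pos hi]
        exact q5 ⟨i, hi⟩
      · intro r r1 r2
        obtain ⟨i, hi⟩ := q6 r r1 r2
        refine ⟨i, i.2, ?_⟩
        simp only [dif_pos i.2]
        exact hi
    · exact ⟨0, 0, 0, fun _ => B, fun h => absurd h hcm⟩
  choose Xf pf nf Mf Hp using hpair
  -- property on the support
  have Hx : ∀ x : Law.GT Z Z, 0 < G.w x → _ := fun x hx => Hp (W x.fst) (W x.snd) ⟨x, hx, rfl, rfl⟩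
  have hi : ∀ x : Law.GT Z Z, ∃ i : ℕ, 0 < G.w x →
      i < nf (W x.fst) (W x.snd) ∧ Bin c2 (Mf (W x.fst) (W x.snd) i) 0 (bl 0 (l x.fst) (t x.fst)) := by
    intro x
    by_cases hx : 0 < G.w x
    · obtain ⟨i, h1, h2⟩ := (Hx x hx).2.2.2.2.2.2.2 _ (hBin1 x hx) (hBin2 x hx)
      exact ⟨i, fun _ => ⟨h1, h2⟩⟩
    · exact ⟨0, fun h => absurd h hx⟩
  choose ix Hi using hi
  refine ⟨fun x => Xf (W x.fst) (W x.snd), fun x => pf (W x.fst) (W x.snd), fun x => Jf (Xf (W x.fst) (W x.snd)) (W x.fst),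
    fun x => Mf (W x.fst) (W x.snd) (ix x), ?_, ?_⟩
  · intro x hx
    obtain ⟨a1, ⟨l0, a2, a3, a4⟩, a5, a6, a7, a8, a9, a10⟩ := Hx x hx
    obtain ⟨b1, b2⟩ := Hi x hx
    have w1 := hW _ (key x hx).1
    have s1 := hShp _ (key x hx).1
    have s2 := hShp _ (key x hx).2
    have j1 := (HJf (Xf (W x.fst) (W x.snd)) a1).1 (W x.fst) s1
    have m1 := a9 _ b1
    have hRL : R ≤ L := by
      obtain ⟨b', R', e1, e2, e3, e4⟩ := w1.1.sh
      have : R = R' := half_inj (w1.2.2.symm.trans e2)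
      omega
    have hK1 : (C2 : ℝ) ≤ (1 + 6 * c) + C2 + |Real.log N| + |Real.log C2| + C2 * Real.log 2 := by
      have : 0 ≤ (C2 : ℝ) * Real.log 2 := by positivity
      have := abs_nonneg (Real.log N)
      have := abs_nonneg (Real.log C2)
      linarith
    have hK2 : (1 + 6 * c) ≤ (1 + 6 * c) + C2 + |Real.log N| + |Real.log C2| + C2 * Real.log 2 := by
      have : 0 ≤ (C2 : ℝ) * Real.log 2 := by positivity
      have := abs_nonneg (Real.log N)
      have := abs_nonneg (Real.log C2)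
      have : (0:ℝ) ≤ C2 := Nat.cast_nonneg _
      linarith
    refine ⟨a1, ?_, a7, ?_, ?_, j1.1.u2, j1.1.u1, ?_, m1.u2, m1.u1⟩
    · have : ((Xf (W x.fst) (W x.snd) : ℕ) : ℝ) ≤ 2 * (pf (W x.fst) (W x.snd) : ℕ) + C2 := by exact_mod_cast a6
      linarith
    · rcases a4 with a4 | a4
      · left
        have h1 := Agr_pass (c := c) (by rw [s1.u2]; positivity) (by linarith) a2 (hBin1 x hx) a4
        obtain ⟨σ, g1, g2, g3, g4⟩ := h1
        have h2 : (1 + 6 * c) * (2 ^ Xf (W x.fst) (W x.snd) * (1 / 2 : ℝ) ^ (R - b)) ≤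
            ((1 + 6 * c) + C2 + |Real.log N| + |Real.log C2| + C2 * Real.log 2) *
              (2 ^ Xf (W x.fst) (W x.snd) * (1 / 2 : ℝ) ^ (R - b)) := mul_le_mul_of_nonneg_right hK2 (by positivity)
        exact ⟨σ, g1, fun k => (g2 k).trans h2, g3.trans h2, g4.trans h2⟩
      · right
        exact a4
    · refine ⟨⟨b, R - Xf (W x.fst) (W x.snd), j1.1.u2, j1.1.u1, by omega, by omega⟩, j1.1.α2.trans (le_max_left _ _),
        j1.1.κ2.trans (le_max_left _ _), Bin_mono (le_max_left _ _) (j1.2 _ (hBin1 x hx)) ?_ ?_⟩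
      · rw [j1.1.u1]; positivity
      · rw [j1.1.u2]; positivity
    · refine ⟨⟨b + pf (W x.fst) (W x.snd), R, m1.u2, m1.u1, a5, by omega⟩, m1.α2.trans (le_max_right _ _),
        m1.κ2.trans (le_max_right _ _), Bin_mono (le_max_right _ _) b2 ?_ ?_⟩
      · rw [m1.u1]; positivity
      · rw [m1.u2]; positivity
  · -- the inequality
    set X : Law.GT Z Z → ℕ := fun x => Xf (W x.fst) (W x.snd) with hXd
    set p : Law.GT Z Z → ℕ := fun x => pf (W x.fst) (W x.snd) with hpd
    set J : Law.GT Z Z → Cbx := fun x => Jf (Xf (W x.fst) (W x.snd)) (W x.fst) with hJd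
    set M : Law.GT Z Z → Cbx := fun x => Mf (W x.fst) (W x.snd) (ix x) with hMd
    have h1 := join_ent P l (fun ω => (fl1 0 (t ω), C ω)) W X J N (by
        intro x y _ _ e
        simp only [Prod.mk.injEq] at e
        show Jf (X x) (W x.fst) = Jf (X y) (W y.fst)
        rw [e.1, e.2]) (by
        intro x hx
        have a := Hx x hx
        obtain ⟨S, hS, HS⟩ := (HJf (X x) a.1).2 (W x.snd) (hShp _ (key x hx).2)
        refine ⟨S, hS, fun x' hx' e1 e2 => ?_⟩
        obtain ⟨a1, ⟨l0, a2, a3, a4⟩, _⟩ := Hx x' hx'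
        have e2' : Xf (W x'.fst) (W x'.snd) = X x := e2
        rw [e2'] at a4
        show Jf (X x') (W x'.fst) ∈ S
        rw [e2]
        rw [e1] at a3 a4
        exact HS (W x'.fst) l0 (hShp _ (key x' hx').1) a2 a3 a4)
    have h2 := meet_ent G (fun x => l x.fst) (fun x => (fl1 0 (t x.fst), C x.fst)) (fun x => (W x.fst, W x.snd)) M ix
      (fun v => nf v.1 v.2) (by
        intro x y _ _ e
        simp only [Prod.mk.injEq] at e
        show Mf (W x.fst) (W x.snd) (ix x) = Mf (W y.fst) (W y.snd) (ix y)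
        rw [e.1.1, e.1.2, e.2]) (fun x hx => (Hi x hx).1)
    have h3 : G.ex (fun x => Real.log (nf (W x.fst) (W x.snd))) ≤
        Real.log C2 + Real.log 2 * (3 * G.ex (fun x => (p x : ℝ)) - G.ex (fun x => (X x : ℝ))) := by
      have e : Real.log C2 + Real.log 2 * (3 * G.ex (fun x => (p x : ℝ)) - G.ex (fun x => (X x : ℝ))) =
          G.ex (fun x => Real.log C2 + Real.log 2 * (3 * (p x : ℝ) - X x)) := by
        rw [G.ex_add, G.ex_const, G.ex_const_mul, G.ex_sub, G.ex_const_mul]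
      rw [e]
      refine G.ex_mono fun x hx => ?_
      obtain ⟨a1, _, a5, a6, a7, a8, a9, a10⟩ := Hx x hx
      have hn : 0 < nf (W x.fst) (W x.snd) := lt_of_le_of_lt (Nat.zero_le _) (Hi x hx).1
      have hn' : (0 : ℝ) < nf (W x.fst) (W x.snd) := by exact_mod_cast hn
      have hC : (0 : ℝ) < C2 := by
        by_contra hcon
        have h0 : (C2 : ℝ) = 0 := le_antisymm (not_lt.1 hcon) (Nat.cast_nonneg _)
        rw [h0, zero_mul] at a8
        have : 0 < (nf (W x.fst) (W x.snd) : ℝ) * 2 ^ Xf (W x.fst) (W x.snd) := by positivity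
        linarith
      have h4 := Real.log_le_log (by positivity) a8
      rw [Real.log_mul hn'.ne' (by positivity), Real.log_mul hC.ne' (by positivity), Real.log_pow, Real.log_pow] at h4
      push_cast at h4
      show Real.log (nf (W x.fst) (W x.snd)) ≤ Real.log C2 + Real.log 2 * (3 * ((pf (W x.fst) (W x.snd) : ℕ) : ℝ) - (Xf (W x.fst) (W x.snd) : ℕ))
      linarith
    have h5 : G.ex (fun x => (X x : ℝ)) ≤ 2 * G.ex (fun x => (p x : ℝ)) + C2 := by
      have e : 2 * G.ex (fun x => (p x : ℝ)) + C2 = G.ex (fun x => 2 * (p x : ℝ) + C2) := by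
        rw [G.ex_add, G.ex_const, G.ex_const_mul]
      rw [e]
      refine G.ex_mono fun x hx => ?_
      have a6 := (Hx x hx).2.2.2.1
      exact_mod_cast a6
    have v1 : val lam P l t C 0 W = hc P l (fun ω => (W ω, fl1 0 (t ω), C ω)) + Real.log 2 * ((3 + lam) * b + (1 - lam) * R) := by
      unfold val
      have : P.ex (fun ω => (3 + lam) * Real.log (W ω).u2 + (1 - lam) * Real.log (W ω).u1) =
          P.ex (fun _ => -(Real.log 2 * ((3 + lam) * b + (1 - lam) * R))) := by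
        refine P.ex_congr fun ω hω => ?_
        rw [(hW ω hω).2.1, (hW ω hω).2.2, Real.log_pow, Real.log_pow, one_div, Real.log_inv]
        ring
      rw [this, P.ex_const]
      push_cast
      ring
    have v2 : val lam G (fun x => l x.fst) (fun x => t x.fst) (fun x => C x.fst) 0 J =
        hc G (fun x => l x.fst) (fun x => (J x, fl1 0 (t x.fst), C x.fst)) +
        Real.log 2 * ((3 + lam) * b + (1 - lam) * R) - Real.log 2 * (1 - lam) * G.ex (fun x => (X x : ℝ)) := by
      unfold val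
      have : G.ex (fun x => (3 + lam) * Real.log (J x).u2 + (1 - lam) * Real.log (J x).u1) =
          -(Real.log 2 * ((3 + lam) * b + (1 - lam) * R)) + Real.log 2 * (1 - lam) * G.ex (fun x => (X x : ℝ)) := by
        rw [← G.ex_const_mul, ← G.ex_const (-(Real.log 2 * ((3 + lam) * b + (1 - lam) * R))), ← G.ex_add]
        refine G.ex_congr fun x hx => ?_
        have a1 := (Hx x hx).1
        have j1 := ((HJf (Xf (W x.fst) (W x.snd)) a1).1 (W x.fst) (hShp _ (key x hx).1)).1
        have j2 : (J x).u2 = (1 / 2 : ℝ) ^ b := j1.u2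
        have j3 : (J x).u1 = (1 / 2 : ℝ) ^ (R - X x) := j1.u1
        have a2 : X x ≤ R := by
          have : X x ≤ R - b := a1
          omega
        rw [j2, j3, Real.log_pow, Real.log_pow, one_div, Real.log_inv, Nat.cast_sub a2]
        ring
      rw [this]
      push_cast
      ring
    have v3 : val lam G (fun x => l x.fst) (fun x => t x.fst) (fun x => C x.fst) 0 M =
        hc G (fun x => l x.fst) (fun x => (M x, fl1 0 (t x.fst), C x.fst)) +
        Real.log 2 * ((3 + lam) * b + (1 - lam) * R) + Real.log 2 * (3 + lam) * G.ex (fun x => (p x : ℝ)) := by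
      unfold val
      have : G.ex (fun x => (3 + lam) * Real.log (M x).u2 + (1 - lam) * Real.log (M x).u1) =
          -(Real.log 2 * ((3 + lam) * b + (1 - lam) * R)) + (-(Real.log 2 * (3 + lam))) * G.ex (fun x => (p x : ℝ)) := by
        rw [← G.ex_const_mul, ← G.ex_const (-(Real.log 2 * ((3 + lam) * b + (1 - lam) * R))), ← G.ex_add]
        refine G.ex_congr fun x hx => ?_
        have a9 := (Hx x hx).2.2.2.2.2.2.1 _ (Hi x hx).1
        have j2 : (M x).u2 = (1 / 2 : ℝ) ^ (b + p x) := a9.u2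
        have j3 : (M x).u1 = (1 / 2 : ℝ) ^ R := a9.u1
        rw [j2, j3, Real.log_pow, Real.log_pow, one_div, Real.log_inv]
        push_cast
        ring
      rw [this]
      push_cast
      ring
    rw [v1, v2, v3]
    have h6 : 0 ≤ hc G X (fun _ => ()) := hc_nonneg _ _ _
    have h7 : 0 ≤ G.ex (fun x => (X x : ℝ)) := G.ex_nonneg fun x _ => Nat.cast_nonneg _
    have hlog : 0 < Real.log 2 := Real.log_pos (by norm_num)
    have h8 := le_abs_self (Real.log N)
    have h9 := le_abs_self (Real.log (C2 : ℝ))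
    have h10 : (0 : ℝ) ≤ C2 := Nat.cast_nonneg _
    have h11 : lam * Real.log 2 * G.ex (fun x => (X x : ℝ)) ≤
        lam * Real.log 2 * (2 * G.ex (fun x => (p x : ℝ)) + C2) := mul_le_mul_of_nonneg_left h5 (by positivity)
    have h12 : lam * Real.log 2 * C2 ≤ Real.log 2 * C2 := by
      have : lam * (Real.log 2 * C2) ≤ 1 * (Real.log 2 * C2) := mul_le_mul_of_nonneg_right hl1 (by positivity)
      linarith
    have h13 : 0 ≤ Real.log 2 * (C2 : ℝ) := by positivity
    have h1' : 2 * hc P l (fun ω => (W ω, (fl1 0 (t ω), C ω))) -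
        hc G (fun x => l x.fst) (fun x => ((W x.fst, W x.snd), (fl1 0 (t x.fst), C x.fst))) -
        2 * hc G X (fun _ => ()) - Real.log N ≤
      hc G (fun x => l x.fst) (fun x => (J x, (fl1 0 (t x.fst), C x.fst))) := h1
    set A1 := hc P l (fun ω => (W ω, (fl1 0 (t ω), C ω)))
    set A2 := hc G (fun x => l x.fst) (fun x => ((W x.fst, W x.snd), (fl1 0 (t x.fst), C x.fst)))
    set A3 := hc G X (fun _ => ())
    set A4 := hc G (fun x => l x.fst) (fun x => (J x, (fl1 0 (t x.fst), C x.fst)))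
    set A5 := hc G (fun x => l x.fst) (fun x => (M x, (fl1 0 (t x.fst), C x.fst)))
    set EX := G.ex (fun x => (X x : ℝ))
    set Ep := G.ex (fun x => (p x : ℝ))
    nlinarith

/-! ### the K-bound -/

/-- **K-BOUND** -/
theorem pkb : PKb := by
  classical
  intro Ω _ ζ β P Z G Rel N ρ hρ hS
  have hS' : ∀ ω', ∃ S : Finset β, S.card ≤ N ∧ (0 < P.w ω' → ∀ ω, 0 < P.w ω → Z ω = Z ω' → Rel ω ω' → G ω ∈ S) := by
    intro ω'
    by_cases h : 0 < P.w ω'
    · obtain ⟨S, h1, h2⟩ := hS ω' h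
      exact ⟨S, h1, fun _ => h2⟩
    · exact ⟨∅, by simp, fun h' => absurd h' h⟩
  choose S0 hS1 hS2 using hS'
  have hmin : ∀ z, ∃ Sz : Finset β, Sz.card ≤ N ∧ ∀ b, 0 < P.w b → Z b = z →
      ∑ a with Z a = z, P.w a * (if G a ∈ Sz then 0 else 1 : ℝ) ≤ ∑ a with Z a = z, P.w a * (if G a ∈ S0 b then 0 else 1 : ℝ) := by
    intro z
    by_cases h : (univ.filter fun b => 0 < P.w b ∧ Z b = z).Nonempty
    · obtain ⟨b, hb, hb'⟩ := Finset.exists_min_image _
        (fun b => ∑ a with Z a = z, P.w a * (if G a ∈ S0 b then 0 else 1 : ℝ)) h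
      refine ⟨S0 b, hS1 b, fun b' h1 h2 => hb' b' ?_⟩
      simp [h1, h2]
    · refine ⟨∅, by simp, fun b h1 h2 => absurd ⟨b, ?_⟩ h⟩
      simp [h1, h2]
  choose S hSc hSm using hmin
  refine ⟨S, hSc, le_trans ?_ hρ⟩
  have e1 : (two P Z).ex (fun x => if Rel x.fst x.snd then 0 else 1) =
      ∑ a, ∑ b with Z b = Z a, P.w a * P.w b / P.pr Z (Z a) * (if Rel a b then 0 else 1 : ℝ) := by
    rw [← Law.GT_sum Z Z (fun a b => P.w a * P.w b / P.pr Z (Z a) * (if Rel a b then 0 else 1 : ℝ))]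
    rfl
  rw [e1]
  unfold Law.ex
  rw [← Finset.sum_fiberwise_of_maps_to (g := Z) (t := img Z) (by simp),
    ← Finset.sum_fiberwise_of_maps_to (s := univ) (g := Z) (t := img Z) (by simp)]
  refine Finset.sum_le_sum fun z _ => ?_
  have e2 : ∑ a with Z a = z, P.w a * (if G a ∈ S (Z a) then 0 else 1 : ℝ) =
      ∑ a with Z a = z, P.w a * (if G a ∈ S z then 0 else 1 : ℝ) := by
    refine Finset.sum_congr rfl fun a ha => ?_
    have : Z a = z := by simpa using ha
    rw [this]
  have e3 : ∑ a with Z a = z, ∑ b with Z b = Z a, P.w a * P.w b / P.pr Z (Z a) * (if Rel a b then 0 else 1 : ℝ) =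
      ∑ b with Z b = z, P.w b / P.pr Z z * ∑ a with Z a = z, P.w a * (if Rel a b then 0 else 1 : ℝ) := by
    have : ∀ a ∈ univ.filter (fun a => Z a = z), ∑ b with Z b = Z a, P.w a * P.w b / P.pr Z (Z a) *
        (if Rel a b then 0 else 1 : ℝ) = ∑ b with Z b = z, P.w b / P.pr Z z * (P.w a * (if Rel a b then 0 else 1 : ℝ)) := by
      intro a ha
      have h1 : Z a = z := by simpa using ha
      rw [h1]
      refine Finset.sum_congr rfl fun b _ => ?_
      ring
    rw [Finset.sum_congr rfl this, Finset.sum_comm]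
    refine Finset.sum_congr rfl fun b _ => ?_
    rw [Finset.mul_sum]
  rw [e2, e3]
  have hw : ∑ b with Z b = z, P.w b = P.pr Z z := rfl
  rcases (P.pr_nonneg Z z).eq_or_lt with h0 | h0
  · have h1 : ∑ a with Z a = z, P.w a * (if G a ∈ S z then 0 else 1 : ℝ) = 0 := by
      refine Finset.sum_eq_zero fun a ha => ?_
      have h2 : Z a = z := by simpa using ha
      have h3 := P.w_le_pr Z a
      rw [h2, ← h0] at h3
      rw [le_antisymm h3 (P.nn a), zero_mul]
    rw [h1]
    refine Finset.sum_nonneg fun b _ => mul_nonneg (div_nonneg (P.nn b) (P.pr_nonneg Z z)) (Finset.sum_nonneg fun a _ =>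
      mul_nonneg (P.nn a) ?_)
    split_ifs <;> norm_num
  · set m := ∑ a with Z a = z, P.w a * (if G a ∈ S z then 0 else 1 : ℝ) with hm
    have h1 : m = ∑ b with Z b = z, P.w b / P.pr Z z * m := by
      rw [← Finset.sum_mul, ← Finset.sum_div, hw, div_self h0.ne', one_mul]
    rw [h1]
    refine Finset.sum_le_sum fun b hb => ?_
    have hb' : Z b = z := by simpa using hb
    rcases (P.nn b).eq_or_lt with h2 | h2
    · rw [← h2]
      simp
    · refine mul_le_mul_of_nonneg_left ((hSm z b h2 hb').trans ?_) (div_nonneg (P.nn b) h0.le)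
      refine Finset.sum_le_sum fun a ha => ?_
      have ha' : Z a = z := by simpa using ha
      rcases (P.nn a).eq_or_lt with h3 | h3
      · rw [← h3]
        simp
      · refine mul_le_mul_of_nonneg_left ?_ h3.le
        by_cases h4 : Rel a b
        · rw [if_pos (hS2 b h2 a h3 (ha'.trans hb'.symm) h4), if_pos h4]
        · rw [if_neg h4]
          split_ifs <;> norm_num

end Vale.Agent.P106.U.H339
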