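import Vale.Agent.P106.U.H457.Ev
import Vale.Agent.P106.U.H205.Compat
import Vale.Agent.P106.U.H428.SlbC
import Vale.Agent.P106.U.H339.SubA

/-!
# P106 / U / H339 : [SUBW] the functional of `W` on the block of level `a` (helper339; notes 18905, 19367 (1))

Near-extremal system, `a + w = h`: two copies given `(l, t_a, C)` have functionals of `W` which agree on the block of level `a`
up to `D 2^-r`, outside probability `ρ1`, as soon as `r + K1 w ≤ q` (`K1 ≥ 1 + 6 / (lam ρ1)`).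

* `RlW` : the relation (functional `H428.Fl a w W t` of the label on the block of level `a`), `RlW.expl` : its explicit form
  in terms of `nrm W (bl h l t)`, `κ`, `α`.
* `subW` : probability of the relation (`H205.nex_win` + `H457.rel_pr`).
* `RlW.symm`, `RlW.mono`.
-/

set_option autoImplicit false

namespace Vale.Agent.P106.U.SubW339

open Finset Vale.Agent.P127 Vale.Agent.P127.Stk Vale.Agent.P127.U Vale.Agent.P106.W Vale.Agent.P106.K
open Vale.Agent.P106.U Vale.Agent.P106.U.H416 Vale.Agent.P106.U.H428 Vale.Agent.P106.U.H61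
open Vale.Agent.P106.U.H118 (two two_supp)
open Vale.Agent.P106.U.H513 (dn dnB tau)
open Vale.Agent.P106.U.SubA339 (zla bla_congr)

/-- two copies depend only on the classes of the letter -/
theorem two_ex_congr {Ω : Type} [Fintype Ω] {S T : Type*} (P : Law Ω) (Z : Ω → S) (Z' : Ω → T)
    (h : ∀ ω ω', Z ω = Z ω' ↔ Z' ω = Z' ω') (f : Ω → Ω → ℝ) :
    (two P Z).ex (fun x => f x.fst x.snd) = (two P Z').ex (fun x => f x.fst x.snd) := by
  classical
  have e1 : (two P Z).ex (fun x => f x.fst x.snd) =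
      ∑ a, ∑ b with Z b = Z a, P.w a * P.w b / P.pr Z (Z a) * f a b := by
    rw [← Law.GT_sum Z Z (fun a b => P.w a * P.w b / P.pr Z (Z a) * f a b)]
    rfl
  have e2 : (two P Z').ex (fun x => f x.fst x.snd) =
      ∑ a, ∑ b with Z' b = Z' a, P.w a * P.w b / P.pr Z' (Z' a) * f a b := by
    rw [← Law.GT_sum Z' Z' (fun a b => P.w a * P.w b / P.pr Z' (Z' a) * f a b)]
    rfl
  rw [e1, e2]
  refine Finset.sum_congr rfl fun a _ => ?_
  have e3 : (univ.filter fun b => Z b = Z a) = univ.filter fun b => Z' b = Z' a := by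
    ext b
    simp only [mem_filter, mem_univ, true_and]
    exact h b a
  have e4 : P.pr Z (Z a) = P.pr Z' (Z' a) := by
    unfold Law.pr
    refine Finset.sum_congr ?_ fun _ _ => rfl
    ext b
    simp only [mem_filter, mem_univ, true_and]
    exact h b a
  rw [e3, e4]

/-- the functionals of the labels of `ω`, `ω'` on the block of level `a` agree up to `D 2^-r` and a sign -/
def RlW (D : ℝ) {Ω : Type} (l : Ω → Ry) (t : Ω → ℝ) (a w r : ℕ) (W : Ω → Cbx) (ω ω' : Ω) : Prop :=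
  ∃ σ : ℝ, (σ = 1 ∨ σ = -1) ∧ Ag (D * (1 / 2 : ℝ) ^ r) (Fl a w (W ω) (t ω)) (Fl a w (W ω') (t ω')) (bl a (l ω) (t ω)) σ

theorem RlW.mono {D D' : ℝ} {Ω : Type} {l : Ω → Ry} {t : Ω → ℝ} {a w r r' : ℕ} {W : Ω → Cbx} {ω ω' : Ω} (hD : 0 ≤ D')
    (h : RlW D l t a w r W ω ω') (hDD : D ≤ D') (hr : r' ≤ r) : RlW D' l t a w r' W ω ω' := by
  obtain ⟨σ, hσ, hA⟩ := h
  refine ⟨σ, hσ, H457.ag_mono ?_ hA⟩
  have h1 : (1 / 2 : ℝ) ^ r ≤ (1 / 2 : ℝ) ^ r' := pow_le_pow_of_le_one (by norm_num) (by norm_num) hr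
  exact mul_le_mul hDD h1 (by positivity) hD

/-- explicit form of the relation -/
theorem RlW.expl {D : ℝ} {Ω : Type} {l : Ω → Ry} {t : Ω → ℝ} {a w r : ℕ} {W : Ω → Cbx} {ω ω' : Ω} (hD : 0 ≤ D)
    (h : RlW D l t a w r W ω ω') (hl : l ω = l ω') (ht : fl1 a (t ω) = fl1 a (t ω')) :
    ∃ σ : ℝ, (σ = 1 ∨ σ = -1) ∧
      (∀ k, |nrm (W ω) (bl (a + w) (l ω) (t ω)) k - σ * nrm (W ω') (bl (a + w) (l ω') (t ω')) k| ≤ D * (1 / 2 : ℝ) ^ r) ∧
      |(W ω).κ + 2 * (2 ^ (a + w) * (W ω).α) * (qa (a + w) (t ω') - qa (a + w) (t ω)) - σ * (W ω').κ| ≤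
        3 * (D * (1 / 2 : ℝ) ^ r) ∧
      |2 ^ (a + w) * (W ω).α - σ * (2 ^ (a + w) * (W ω').α)| ≤ 2 ^ a * (D * (1 / 2 : ℝ) ^ r) := by
  obtain ⟨σ, hσ, h1, h2, h3⟩ := h
  set δ := D * (1 / 2 : ℝ) ^ r with hδ
  have hδ0 : 0 ≤ δ := by positivity
  have eq : qa a (t ω) = qa a (t ω') := by unfold qa; rw [ht]
  have ebl : bl a (l ω) (t ω) = bl a (l ω') (t ω') := bla_congr hl ht
  have h2a : (0 : ℝ) < 2 ^ a := by positivity
  have hτ0 : 0 ≤ 2 ^ a * (qa (a + w) (t ω') - qa a (t ω')) := H513.tau_nonneg a w (t ω')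
  have hτ1 : 2 ^ a * (qa (a + w) (t ω') - qa a (t ω')) ≤ 1 := H513.tau_le a w (t ω')
  have e1 : ∀ x : Ω, (Fl a w (W x) (t x)).κ = (W x).κ - 2 * (2 ^ (a + w) * (W x).α) * (qa (a + w) (t x) - qa a (t x)) :=
    fun x => by
      simp only [Fl, dnB, tau]
      rw [pow_add]
      ring
  have e2 : ∀ x : Ω, (Fl a w (W x) (t x)).α = 2 ^ w * (W x).α := fun x => rfl
  refine ⟨σ, hσ, fun k => ?_, ?_, ?_⟩
  · have h4 := h1 k
    rw [nv_Fl] at h4
    rw [ebl, nv_Fl] at h4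
    have n1 : ∀ (B : Cbx) (m : Ry), nv B m k = nrm B m k := fun B m => by
      fin_cases k <;> simp [nv, Cbx.nn, nrm]
    rwa [n1, n1] at h4
  · rw [e2, e2] at h3
    rw [e1, e1] at h2
    have e : (W ω).κ + 2 * (2 ^ (a + w) * (W ω).α) * (qa (a + w) (t ω') - qa (a + w) (t ω)) - σ * (W ω').κ =
        ((W ω).κ - 2 * (2 ^ (a + w) * (W ω).α) * (qa (a + w) (t ω) - qa a (t ω)) -
          σ * ((W ω').κ - 2 * (2 ^ (a + w) * (W ω').α) * (qa (a + w) (t ω') - qa a (t ω')))) +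
        2 * ((2 ^ a * (qa (a + w) (t ω') - qa a (t ω'))) * (2 ^ w * (W ω).α - σ * (2 ^ w * (W ω').α))) := by
      rw [eq, pow_add]
      ring
    rw [e]
    refine (abs_add_le _ _).trans ?_
    have h5 : |2 * ((2 ^ a * (qa (a + w) (t ω') - qa a (t ω'))) * (2 ^ w * (W ω).α - σ * (2 ^ w * (W ω').α)))| ≤ 2 * δ := by
      rw [abs_mul, abs_two, abs_mul, abs_of_nonneg hτ0]
      have := mul_le_mul hτ1 h3 (abs_nonneg _) zero_le_one
      linarith
    linarith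
  · rw [e2, e2] at h3
    have e : 2 ^ (a + w) * (W ω).α - σ * (2 ^ (a + w) * (W ω').α) = 2 ^ a * (2 ^ w * (W ω).α - σ * (2 ^ w * (W ω').α)) := by
      rw [pow_add]
      ring
    rw [e, abs_mul, abs_of_pos h2a]
    exact mul_le_mul_of_nonneg_left h3 h2a.le


open Classical in
/-- **[SUBW]** : two copies of a near-extremal system given `(l, t_a, C)` -/
theorem subW {lam N : ℝ} (h0 : 0 < lam) (h1 : lam ≤ 1) (hN : 0 ≤ N) {k β' : ℝ} (hk : 0 < k) (hk1 : k ≤ lam / 16)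
    (hβ' : 0 ≤ β') (hF : FIXA lam N (4 * k) β') {c : ℝ} (hc : 1 ≤ c) {ρ1 : ℝ} (hρ1 : 0 < ρ1) {K1 : ℝ}
    (hK1 : 1 + 6 / (lam * ρ1) ≤ K1) {ε : ℝ} (hε : 0 < ε) :
    ∃ (D K : ℝ) (h0' : ℕ), 0 ≤ D ∧ 0 ≤ K ∧ ∀ (β d d' : ℝ) (Ω : Type) [Fintype Ω] (γ : Type) (P : Law Ω) (l : Ω → Ry)
      (t : Ω → ℝ) (C : Ω → γ) (L h q : ℕ) (W : Ω → Cbx), NEx c lam N k β d P l t C L h q W → ∀ a w : ℕ, a + w = h →
      h0' ≤ w → d' ≤ β → (d * h + (β' + ε - β) * a) * Real.log 2 + K ≤ d' * w * Real.log 2 →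
      ∀ r : ℕ, (r : ℝ) + K1 * w ≤ q →
      (two P (zla a l t C)).ex (fun x => if RlW D l t a w r W x.fst x.snd then 0 else 1) ≤ ρ1 := by
  obtain ⟨K, hK0, hK⟩ := H205.nex_win lam N k β' h0.le h1 hk hN hβ' hF c hc ε hε
  obtain ⟨D, n0, hD, hrel⟩ := H457.rel_pr h0 h1 hN (k := 2 * k) (by positivity) (by linarith) hc hρ1 hK1
  refine ⟨D, K, n0, hD, hK0, ?_⟩
  intro β d d' Ω _ γ P l t C L h q W hE a w haw hw hd' hbud r hr
  have hE' := hK β d d' Ω γ P l t C L h q W hE a w haw hbud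
  have key := hrel β d' Ω _ P _ _ _ (L - a) w q _ hw hd' hE' r hr
  have z0 : ∀ x : ℝ, fl1 0 (wt a x) = 0 := fun x => by
    unfold fl1
    rw [pow_zero, one_mul, Int.floor_eq_iff]
    push_cast
    exact ⟨wt_nonneg a x, by linarith [wt_lt a x]⟩
  have hZ : ∀ ω ω', zla a l t C ω = zla a l t C ω' ↔
      zl (fun ω => wR a (l ω) (t ω)) (fun ω => wt a (t ω)) (fun ω => ((), (wC a l t C ω, ()))) ω =
        zl (fun ω => wR a (l ω) (t ω)) (fun ω => wt a (t ω)) (fun ω => ((), (wC a l t C ω, ()))) ω' := by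
    intro ω ω'
    simp only [zla, zl, wC, Prod.mk.injEq, z0, true_and, and_true]
    constructor
    · rintro ⟨e1, e2, e3⟩
      have ebl : bl a (l ω) (t ω) = bl a (l ω') (t ω') := bla_congr e1 e2
      have ewo : wo a (l ω) (t ω) = wo a (l ω') (t ω') := by unfold wo; rw [ebl]
      have ewh : wh a (l ω) (t ω) = wh a (l ω') (t ω') := by unfold wh; rw [ebl]
      exact ⟨by unfold wR; rw [ewo, ewh, ebl], e3, e2, ewo, ewh⟩
    · rintro ⟨e1, e3, e2, ewo, ewh⟩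
      refine ⟨?_, e2, e3⟩
      unfold wR trC at e1
      rw [ewo, ewh] at e1
      have e4 := trR_inj e1
      rw [H416.bl_congr e2] at e4
      exact bl_inj rfl e4
  rw [two_ex_congr P _ _ hZ (fun ω ω' => if RlW D l t a w r W ω ω' then 0 else 1)]
  refine le_trans ?_ key
  refine Law.ex_mono _ fun x hx => ?_
  by_cases hR : H457.Rl D (fun ω => wR a (l ω) (t ω)) (fun ω => wt a (t ω)) w r (H416.wB a w l t W) x.fst x.snd
  · rw [if_pos hR, if_pos]
    obtain ⟨σ, hσ, hA⟩ := hR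
    refine ⟨σ, hσ, ?_⟩
    have hx' := (hZ x.fst x.snd).2 x.eq
    simp only [zla, Prod.mk.injEq] at hx'
    obtain ⟨e1, e2, e3⟩ := hx'
    have ebl : bl a (l x.fst) (t x.fst) = bl a (l x.snd) (t x.snd) := bla_congr e1 e2
    have ewo : wo a (l x.fst) (t x.fst) = wo a (l x.snd) (t x.snd) := by unfold wo; rw [ebl]
    have ewh : wh a (l x.fst) (t x.fst) = wh a (l x.snd) (t x.snd) := by unfold wh; rw [ebl]
    have eWR : wR a (l x.fst) (t x.fst) = wR a (l x.snd) (t x.snd) := by unfold wR; rw [ewo, ewh, ebl]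
    have n1 : nv (Fa w (H416.wB a w l t W x.fst) (wt a (t x.fst))) (bl 0 (wR a (l x.fst) (t x.fst)) (wt a (t x.fst))) =
        nv (Fl a w (W x.fst) (t x.fst)) (bl a (l x.fst) (t x.fst)) := by
      rw [bl_wR_zero]
      exact nv_Fa_win a w (W x.fst) (l x.fst) (t x.fst)
    have n2 : nv (Fa w (H416.wB a w l t W x.snd) (wt a (t x.snd))) (bl 0 (wR a (l x.fst) (t x.fst)) (wt a (t x.fst))) =
        nv (Fl a w (W x.snd) (t x.snd)) (bl a (l x.fst) (t x.fst)) := by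
      rw [bl_wR_zero, eWR, ebl]
      exact nv_Fa_win a w (W x.snd) (l x.snd) (t x.snd)
    have f1 : Fa w (H416.wB a w l t W x.fst) (wt a (t x.fst)) =
        H416.trB (fun k => (wo a (l x.fst) (t x.fst) k : ℝ)) (wh a (l x.fst) (t x.fst) : ℝ) (Fl a w (W x.fst) (t x.fst)) :=
      Fa_win a w (W x.fst) (l x.fst) (t x.fst)
    have f2 : Fa w (H416.wB a w l t W x.snd) (wt a (t x.snd)) =
        H416.trB (fun k => (wo a (l x.snd) (t x.snd) k : ℝ)) (wh a (l x.snd) (t x.snd) : ℝ) (Fl a w (W x.snd) (t x.snd)) :=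
      Fa_win a w (W x.snd) (l x.snd) (t x.snd)
    obtain ⟨a1, a2, a3⟩ := hA
    refine ⟨fun k => ?_, ?_, ?_⟩
    · have := a1 k
      rw [n1, n2] at this
      exact this
    · rw [f1, f2] at a2
      exact a2
    · rw [f1, f2] at a3
      exact a3
  · rw [if_neg hR]
    split_ifs <;> norm_num

end Vale.Agent.P106.U.SubW339
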