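import Vale.Agent.P106.U.H339.WordX
import Vale.Agent.P106.U.H428.Cls

/-!
# P106 / U / H339 : the words of the closures (helper339) : helper428's second path as `Wd`

`dep d c Q Y n b ω a = RT a + (n - a)` (revealed depth of the level `a` at the base `b`, shifted by `n` to be in `ℕ`).
* `wd_gb` : the hypotheses `Wd` with `tol = s`, `X a = RI a + (n - a)`.
* `dep_fn` / `jws_dep` : the words up to the cap are functions of the closure at the cap.
* `RT_of` : the second path at all caps of the window is a function of the word.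
* `gb_wordH`, `gb_smc` : the two literal hypotheses of `pSelG`.
-/

set_option autoImplicit false

namespace Vale.Agent.P106.U.H339W

open Finset Vale.Agent.P127 Vale.Agent.P127.Stk Vale.Agent.P106.U.H300
open Vale.Agent.P106.U.H428.Cls (Dt)

variable {Ω : Type} [Fintype Ω]

/-- revealed depth (shifted by `n`) of the level `a` at the base `b` -/
noncomputable def dep (d : Dt Ω) (c : ℝ) (Q : Law Ω) {T : Type*} (Y : ℕ → Ω → T) (n b : ℕ) (ω : Ω) (a : ℕ) : ℕ :=
  d.RT ((d.clD c).Rd Q Y b ω) a + (n - a)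

/-- full depth (shifted by `n`) -/
def depX (d : Dt Ω) (n a : ℕ) : ℕ := d.RI a + (n - a)

variable {d : Dt Ω} {c : ℝ} {Q : Law Ω} {T : Type*} {Y : ℕ → Ω → T} {n : ℕ}

theorem dep_sub {b a : ℕ} {ω : Ω} : dep d c Q Y n b ω a - (n - a) = d.RT ((d.clD c).Rd Q Y b ω) a := by
  unfold dep
  omega

/-- **the closures give the hypotheses of the words** -/
theorem wd_gb (hs : d.Su Q) (hc : 0 ≤ c) (hn : n ≤ d.N) (B : ℕ) : Wd Q n B d.s (depX d n) (dep d c Q Y n) where
  le b _ ω _ a _ := by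
    have := Dt.RT_le' (d := d) ((d.clD c).Rd Q Y b ω) a
    unfold dep depX
    omega
  desc a ha := by
    have h1 : d.RI a ≤ d.RI (a + 1) := d.hRI (Nat.le_succ a)
    unfold depX
    omega
  lag b _ ω _ a ha h := by
    unfold dep depX at h
    have h1 := (Dt.kw_gb hs hc Y b).RT_eq (ω := ω) (a := a) (by omega) (by omega)
    unfold dep
    rw [h1]
    omega
  mono b _ ω _ a _ := by
    have h1 : d.RT ((d.clD c).Rd Q Y b ω) a ≤ d.RT ((d.clD c).Rd Q Y (b + 1) ω) a :=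
      Dt.gb_RT_mono Y (Nat.le_succ b) ω a
    unfold dep
    omega

/-- the depths at an earlier base are functions of the closure -/
theorem dep_fn {b b' : ℕ} (hb : b ≤ b') {ω ω' : Ω} (h : (d.clD c).Gb Q Y b' ω' = (d.clD c).Gb Q Y b' ω) (a : ℕ) :
    dep d c Q Y n b ω' a = dep d c Q Y n b ω a := by
  have h1 := H465.Clo.Dat.gb_nest' hb h
  have h2 : (d.clD c).Rd Q Y b ω' = (d.clD c).Rd Q Y b ω := by
    funext x
    exact propext (H465.Clo.Dat.rd_congr h1)
  unfold dep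
  rw [h2]

/-- **the word of the window is a function of the closure at its last cap** -/
theorem jws_dep {s b0 kk : ℕ} {ω ω' : Ω}
    (h : (d.clD c).Gb Q Y (b0 + kk * s) ω = (d.clD c).Gb Q Y (b0 + kk * s) ω') :
    jws n s (dep d c Q Y n) b0 kk ω = jws n s (dep d c Q Y n) b0 kk ω' := by
  refine jws_fn fun k hk a _ => ?_
  exact dep_fn (Nat.add_le_add_left (Nat.mul_le_mul_right s hk) b0) h a

/-- the second path at the caps of the window, from the value of the word -/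
theorem RT_of {s b0 kk : ℕ} {ω : Ω} {k : ℕ} (hk : k ≤ kk) {a : ℕ} (ha : a ≤ n) :
    jws n s (dep d c Q Y n) b0 kk ω k a - (n - a) = d.RT ((d.clD c).Rd Q Y (b0 + k * s) ω) a := by
  rw [jws_apply ω hk ha]
  exact dep_sub

/-- **[WORDH] for the closures** : the constants `C₀`, `D0`, `C` depend on `s`, `Tc`, `ε` only -/
theorem gb_wordH (tol : ℕ) : ∃ C₀ : ℝ, 0 ≤ C₀ ∧ ∀ (Tc : ℕ) (ε : ℝ), 0 < ε → ∃ (D0 : ℕ) (C : ℝ), 0 ≤ C ∧
    ∀ {Ω : Type} [Fintype Ω] (Q : Law Ω) (d : Dt Ω) (c : ℝ) {T : Type} (Y : ℕ → Ω → T) (n B s : ℕ), d.s = tol → d.Su Q → 0 ≤ c →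
      n ≤ d.N → 0 < B → 1 ≤ s → Tc * s ≤ B →
      ∑ b0 ∈ range (B + 1 - Tc * s), ∑ kk ∈ range Tc, Q.H (jws n s (dep d c Q Y n) b0 kk) ≤
        ((Tc + 1) * Real.log ((d.RI 0 : ℝ) + n + 1) + (C₀ + ε) * (n + d.RI n) + C * Tc * (n * (s * D0)) / B) *
          (B * Tc) := by
  obtain ⟨C₀, hC₀, H⟩ := wordH tol
  refine ⟨C₀, hC₀, fun Tc ε hε => ?_⟩
  obtain ⟨D0, C, hC, hH⟩ := H Tc ε hε
  refine ⟨D0, C, hC, ?_⟩
  intro Ω _ Q d c T Y n B s htol hs hc hn hB hs1 hTs
  have h1 := wd_gb (Y := Y) hs hc hn B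
  rw [htol] at h1
  have h2 := hH Q n B s (depX d n) (dep d c Q Y n) h1 hB hs1 hTs
  have e1 : (depX d n 0 : ℝ) = d.RI 0 + n := by
    unfold depX
    push_cast
    simp
  have e2 : (depX d n n : ℝ) = d.RI n := by
    unfold depX
    simp
  rw [e1, e2] at h2
  exact h2

/-- **[XS] for the closures** -/
theorem gb_smc (hs : d.Su Q) (hc : 0 ≤ c) (hn : n ≤ d.N) {B s Tc K1 D0 : ℕ} (hB : 0 < B) (hs1 : 1 ≤ s)
    (hT0 : 0 < Tc) (hTs : Tc * s ≤ B) :
    ∑ b0 ∈ range (B + 1 - Tc * s), ∑ kk ∈ range Tc,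
      Q.ex (fun ω => smc n K1 D0 (depX d n) kk (jws n s (dep d c Q Y n) b0 kk ω)) ≤
      (n * (K1 / Tc + K1 * s * D0 / B)) * (B * Tc) :=
  smc_avg (wd_gb (Y := Y) hs hc hn B) hB hs1 hT0 hTs

/-- `sm` of two caps of the window in terms of the second path -/
theorem smc_eq {s b0 kk K1 D0 : ℕ} {ω : Ω} (hK : K1 ≤ kk) :
    smc n K1 D0 (depX d n) kk (jws n s (dep d c Q Y n) b0 kk ω) =
      sm n D0 d.RI (d.RT ((d.clD c).Rd Q Y (b0 + kk * s) ω)) (d.RT ((d.clD c).Rd Q Y (b0 + (kk - K1) * s) ω)) := by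
  unfold smc
  rw [if_pos hK]
  congr 1
  unfold sm
  congr 1
  refine Finset.filter_congr fun a ha => ?_
  rw [Finset.mem_Icc] at ha
  rw [jws_apply ω le_rfl ha.2, jws_apply ω (Nat.sub_le kk K1) ha.2]
  unfold dep depX
  omega

end Vale.Agent.P106.U.H339W
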