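import Vale.Agent.P106.U.H300.LagW

/-!
# P106 / U / H339 : [WORDH] entropy of the words of the windows (helper339; for helper480's `PSelG`)

`w b ω a` : revealed depth at the cap `b ≤ B` and the level `a ≤ n` (blocks), monotone in `b`, `≤ X a`, constant from the
level `a` to `a + 1` when the lag is `≥ 2 + tol`.  The joint words of all windows `b0, b0 + s, .., b0 + kk s` (`kk < Tc`)
have together entropy `≤ Hm · B · Tc`, with `Hm = (Tc+1) log (X 0 + 1) + (C₀ + ε)(n + X n) + C Tc n s D0 / B`.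
-/

set_option autoImplicit false

namespace Vale.Agent.P106.U.H339W

open Finset Vale.Agent.P127 Vale.Agent.P127.Stk Vale.Agent.P106.U.H300

variable {Ω : Type}

/-- the joint word of the caps `b0, b0 + s, .., b0 + kk s` -/
def jws (n s : ℕ) (w : ℕ → Ω → ℕ → ℕ) (b0 kk : ℕ) : Ω → ℕ → ℕ → ℕ :=
  jw n kk fun k => w (b0 + k * s)

/-- the joint word is a function of any letter which determines the words -/
theorem jws_fn {n s : ℕ} {w : ℕ → Ω → ℕ → ℕ} {b0 kk : ℕ} {ω ω' : Ω}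
    (h : ∀ k ≤ kk, ∀ a ≤ n, w (b0 + k * s) ω a = w (b0 + k * s) ω' a) : jws n s w b0 kk ω = jws n s w b0 kk ω' := by
  unfold jws
  rw [jw_eq_iff]
  intro j hj
  rw [pre_eq_iff]
  exact fun a ha => h j hj a ha

/-- the joint word of `kk + 1` caps determines the words -/
theorem jws_eq {n s : ℕ} {w : ℕ → Ω → ℕ → ℕ} {b0 kk : ℕ} {ω ω' : Ω}
    (h : jws n s w b0 kk ω = jws n s w b0 kk ω') {k : ℕ} (hk : k ≤ kk) {a : ℕ} (ha : a ≤ n) :
    w (b0 + k * s) ω a = w (b0 + k * s) ω' a := by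
  unfold jws at h
  rw [jw_eq_iff] at h
  have h1 := h k hk
  rw [pre_eq_iff] at h1
  exact h1 a ha

variable [Fintype Ω]

/-- entropy is at most the conditional entropy given a constant -/
theorem H_le_hc {S : Type*} (P : Law Ω) (Y : Ω → S) : P.H Y ≤ hc P Y (fun _ => ()) := by
  have h1 : P.H (fun _ : Ω => ()) ≤ 0 := by
    refine (P.H_le_log_card (fun _ : Ω => ())).trans ?_
    simp
  have h2 := Stk.H_congr' P (X := fun ω => (Y ω, ())) (Y := Y) (fun ω ω' _ _ e => congrArg Prod.fst e)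
    (fun ω ω' _ _ e => Prod.ext e rfl)
  show P.H Y ≤ P.H (fun ω => (Y ω, ())) - P.H (fun _ => ())
  linarith

/-- entropy of a number `≤ M` -/
theorem hc_nat_le {T : Type*} (P : Law Ω) (Y : Ω → ℕ) (Z : Ω → T) (M : ℕ) (h : ∀ ω, 0 < P.w ω → Y ω ≤ M) :
    hc P Y Z ≤ Real.log ((M : ℝ) + 1) := by
  have := Stk.hc_le_log P Y Z (M + 1) (fun ω hω => ⟨range (M + 1), by rw [card_range], fun ω' hω' _ =>
    Finset.mem_range.2 (Nat.lt_succ_of_le (h ω' hω'))⟩)
  push_cast at this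
  exact this

/-- hypotheses on the revealed depths -/
structure Wd (Q : Law Ω) (n B tol : ℕ) (X : ℕ → ℕ) (w : ℕ → Ω → ℕ → ℕ) : Prop where
  le : ∀ b ≤ B, ∀ ω, 0 < Q.w ω → ∀ a ≤ n, w b ω a ≤ X a
  desc : ∀ a < n, X a ≤ X (a + 1) + 1
  lag : ∀ b ≤ B, ∀ ω, 0 < Q.w ω → ∀ a < n, w b ω a + 2 + tol ≤ X a → w b ω (a + 1) = w b ω a
  mono : ∀ b < B, ∀ ω, 0 < Q.w ω → ∀ a ≤ n, w b ω a ≤ w (b + 1) ω a

/-- **[WORDH]** -/
theorem wordH (tol : ℕ) : ∃ C₀ : ℝ, 0 ≤ C₀ ∧ ∀ (Tc : ℕ) (ε : ℝ), 0 < ε → ∃ (D0 : ℕ) (C : ℝ), 0 ≤ C ∧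
    ∀ {Ω : Type} [Fintype Ω] (Q : Law Ω) (n B s : ℕ) (X : ℕ → ℕ) (w : ℕ → Ω → ℕ → ℕ), Wd Q n B tol X w →
      0 < B → 1 ≤ s → Tc * s ≤ B →
      ∑ b0 ∈ range (B + 1 - Tc * s), ∑ kk ∈ range Tc, Q.H (jws n s w b0 kk) ≤
        ((Tc + 1) * Real.log ((X 0 : ℝ) + 1) + (C₀ + ε) * (n + X n) + C * Tc * (n * (s * D0)) / B) * (B * Tc) := by
  obtain ⟨C₀, hC₀, H⟩ := lag_win tol
  refine ⟨C₀, hC₀, fun Tc ε hε => ?_⟩
  obtain ⟨D0, C, hC, hH⟩ := H Tc ε hε
  refine ⟨D0, C, hC, ?_⟩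
  intro Ω _ Q n B s X w h hB hs hTs
  have hB0 : (0 : ℝ) < B := by exact_mod_cast hB
  rcases Nat.eq_zero_or_pos Tc with hT0 | hT0
  · subst hT0
    simp
  have hTc : (0 : ℝ) < Tc := by exact_mod_cast hT0
  set A : ℝ := Real.log ((X 0 : ℝ) + 1) with hA
  set G : ℕ → ℕ → ℝ := fun b0 k => Q.ex (fun ω => (chg n D0 (w (b0 + (k + 1) * s) ω) X (w (b0 + k * s) ω) : ℝ)) with hG
  have hcap : ∀ b0 ∈ range (B + 1 - Tc * s), ∀ k ≤ Tc, b0 + k * s ≤ B := by
    intro b0 hb k hk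
    rw [Finset.mem_range] at hb
    have := Nat.mul_le_mul_right s hk
    omega
  -- one window
  have one : ∀ b0 ∈ range (B + 1 - Tc * s), ∀ kk ∈ range Tc, Q.H (jws n s w b0 kk) ≤
      (Tc + 1) * A + (C₀ + ε) * (n + X n) + C * ∑ k ∈ range Tc, G b0 k := by
    intro b0 hb kk hkk
    have hkk' := Finset.mem_range.1 hkk
    have e1 : Q.H (jws n s w b0 kk) ≤ Q.H (jws n s w b0 Tc) := by
      refine Stk.H_mono' Q fun ω ω' _ _ e => ?_
      refine jws_fn fun k hk a ha => ?_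
      exact jws_eq e (hk.trans hkk'.le) ha
    have e2 := H_le_hc Q (jws n s w b0 Tc)
    have e3 := hH Q n (fun k => w (b0 + k * s)) (fun _ => X) (fun _ => ())
      (fun k hk ω hω a ha => h.le _ (hcap b0 hb k hk) ω hω a ha) (fun ω _ a ha => h.desc a ha)
      (fun k hk ω hω a ha hl => h.lag _ (hcap b0 hb k hk) ω hω a ha hl) (fun _ _ _ _ _ => rfl) (A := A)
      (fun k hk => hc_nat_le Q _ _ (X 0) fun ω hω => h.le _ (hcap b0 hb k hk) ω hω 0 (Nat.zero_le _))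
    rw [Q.ex_const] at e3
    exact e1.trans (e2.trans e3)
  -- the changes
  set w' : ℕ → Ω → ℕ → ℕ := fun b => w (min b B) with hw'
  have hm' : ∀ ω, 0 < Q.w ω → ∀ b, ∀ a ≤ n, w' b ω a ≤ w' (b + 1) ω a := by
    intro ω hω b a ha
    simp only [hw']
    rcases lt_or_ge b B with h1 | h1
    · rw [min_eq_left h1.le, min_eq_left (by omega)]
      exact h.mono b h1 ω hω a ha
    · rw [min_eq_right h1, min_eq_right (by omega)]
  have chgs : ∀ k ∈ range Tc, ∑ b0 ∈ range (B + 1 - Tc * s), G b0 k ≤ n * (s * D0) := by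
    intro k hk
    have hk' := Finset.mem_range.1 hk
    have e1 := ex_chg_s Q n (B + 1 - Tc * s) D0 s (fun _ => X) (fun j => w' (j + k * s))
      (fun ω hω j a ha => h.le _ (min_le_right _ _) ω hω a ha)
      (fun ω hω j _ a ha => by
        have := hm' ω hω (j + k * s) a ha
        rw [show j + 1 + k * s = j + k * s + 1 by ring]
        exact this)
    refine le_trans (le_of_eq ?_) e1
    refine Finset.sum_congr rfl fun b0 hb => ?_
    have c1 := hcap b0 hb (k + 1) hk'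
    have c2 := hcap b0 hb k hk'.le
    simp only [hG, hw']
    rw [min_eq_left c2, show b0 + s + k * s = b0 + (k + 1) * s by ring, min_eq_left c1]
  have hcard : ((B + 1 - Tc * s : ℕ) : ℝ) ≤ B := by
    have : B + 1 - Tc * s ≤ B := by
      have := Nat.mul_le_mul hT0 hs
      omega
    exact_mod_cast this
  have hA0 : 0 ≤ A := Real.log_nonneg (by
    have : (0 : ℝ) ≤ X 0 := by positivity
    linarith)
  have hc0 : 0 ≤ (Tc + 1) * A + (C₀ + ε) * (n + X n) := by positivity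
  calc ∑ b0 ∈ range (B + 1 - Tc * s), ∑ kk ∈ range Tc, Q.H (jws n s w b0 kk)
      ≤ ∑ b0 ∈ range (B + 1 - Tc * s), ∑ _kk ∈ range Tc,
          ((Tc + 1) * A + (C₀ + ε) * (n + X n) + C * ∑ k ∈ range Tc, G b0 k) :=
        Finset.sum_le_sum fun b0 hb => Finset.sum_le_sum fun kk hkk => one b0 hb kk hkk
    _ = ((B + 1 - Tc * s : ℕ) : ℝ) * (Tc * ((Tc + 1) * A + (C₀ + ε) * (n + X n))) +
          Tc * (C * ∑ k ∈ range Tc, ∑ b0 ∈ range (B + 1 - Tc * s), G b0 k) := by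
        simp only [Finset.sum_const, card_range, nsmul_eq_mul, mul_add, Finset.sum_add_distrib]
        rw [Finset.sum_comm (s := range Tc)]
        simp only [Finset.mul_sum]
    _ ≤ B * (Tc * ((Tc + 1) * A + (C₀ + ε) * (n + X n))) + Tc * (C * (Tc * (n * (s * D0)))) := by
        refine add_le_add (mul_le_mul_of_nonneg_right hcard (by positivity)) ?_
        refine mul_le_mul_of_nonneg_left (mul_le_mul_of_nonneg_left ?_ hC) hTc.le
        refine (Finset.sum_le_card_nsmul _ _ _ chgs).trans ?_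
        rw [card_range, nsmul_eq_mul]
    _ = _ := by
        field_simp

end Vale.Agent.P106.U.H339W
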